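import Mathlib
import Vale.Agent.P116.Slow.Def

/-!
# Structures with general pieces: spaces of structures inside a node, and the metric

A piece is a nondegenerate compact connected set which does not separate the plane and whose
boundary does not meet `K`. Contexts of `Q` consist of pieces which lie inside nodes disjoint
from `Q`.
-/

open Set Filter Topology Metric Bornology

namespace Vale.Agent.P116.G

open H906
open PBC (full_union full_nd full_comp full_nodes nontrivial_nd)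
open Slow (KM KM_eq KM_nu)

/-- general pieces -/
structure Pc (K P : Set ℂ) : Prop where
  cpt : IsCompact P
  conn' : IsConnected P
  nontriv : P.Nontrivial
  full : Full P
  fr : Disjoint (frontier P) K

/-- finite families of disjoint pieces inside `Q` -/
structure NS (K Q : Set ℂ) (S : Set (Set ℂ)) : Prop where
  fin : S.Finite
  pc : ∀ P ∈ S, Pc K P
  disj : ∀ P ∈ S, ∀ P' ∈ S, P ≠ P' → Disjoint P P'
  sub : ∀ P ∈ S, P ⊆ Q

variable {K Q : Set ℂ}

lemma Pc.compact {P : Set ℂ} (_hK : IsCompact K) (h : Pc K P) : IsCompact P := h.cpt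

lemma Pc.conn {P : Set ℂ} (h : Pc K P) : IsConnected P := h.conn'

lemma Pc.nonempty {P : Set ℂ} (h : Pc K P) : P.Nonempty := h.nontriv.nonempty

/-- nodes are pieces -/
lemma pc_nd (hK : IsCompact K) (n : ℕ) {x : ℂ} (hx : x ∈ K) : Pc K (nd K n x) where
  cpt := isCompact_nd hK n x
  conn' := ⟨(nontrivial_nd hx).nonempty, isPreconnected_nd n x⟩
  nontriv := nontrivial_nd hx
  full := full_nd hK n x
  fr := frontier_nd_disjoint n x

/-- finite families of disjoint full compact sets are full -/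
lemma full_sUnion {T : Set (Set ℂ)} (hT : T.Finite) (hc : ∀ P ∈ T, IsCompact P ∧ Full P)
    (hd : ∀ P ∈ T, ∀ Q ∈ T, P ≠ Q → Disjoint P Q) : IsCompact (⋃₀ T) ∧ Full (⋃₀ T) := by
  induction T, hT using Set.Finite.induction_on with
  | empty =>
    rw [sUnion_empty]
    refine ⟨isCompact_empty, fun z _ => ?_⟩
    exact ⟨univ, isPreconnected_univ, mem_univ _, disjoint_empty _,
      NormedSpace.unbounded_univ ℝ ℂ⟩
  | @insert P T hPT _ ih =>
    obtain ⟨h1, h2⟩ := ih (fun Q hQ => hc Q (mem_insert_of_mem _ hQ))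
      (fun Q hQ Q' hQ' => hd Q (mem_insert_of_mem _ hQ) Q' (mem_insert_of_mem _ hQ'))
    obtain ⟨h3, h4⟩ := hc P (mem_insert _ _)
    rw [sUnion_insert]
    refine ⟨h3.union h1, full_union h3 h1 h4 h2 ?_⟩
    rw [disjoint_sUnion_right]
    intro Q hQ
    exact hd P (mem_insert _ _) Q (mem_insert_of_mem _ hQ) (fun h => hPT (h ▸ hQ))

/-- structures inside `Q` -/
def SQ (K Q : Set ℂ) : Type := {S : Set (Set ℂ) // NS K Q S}

/-- the context condition -/
def Off (K Q P : Set ℂ) : Prop := ∃ m, ∃ y ∈ K, P ⊆ nd K m y ∧ Disjoint (nd K m y) Q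

lemma Off.dj {P : Set ℂ} (h : Off K Q P) : Disjoint P Q := by
  obtain ⟨m, y, _, h1, h2⟩ := h
  exact h2.mono_left h1

lemma Off.mono {P Q' : Set ℂ} (h : Off K Q P) (hQ : Q' ⊆ Q) : Off K Q' P := by
  obtain ⟨m, y, hy, h1, h2⟩ := h
  exact ⟨m, y, hy, h1, h2.mono_right hQ⟩

/-- contexts of `Q`: the pieces lie in nodes which do not meet `Q` -/
def CQ (K Q : Set ℂ) : Type := {O : Set (Set ℂ) // NS K (lev K 0) O ∧ ∀ P ∈ O, Off K Q P}

lemma ns_empty : NS K Q ∅ where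
  fin := finite_empty
  pc _ hP := hP.elim
  disj _ hP := hP.elim
  sub _ hP := hP.elim

lemma ns_mono {Q' : Set ℂ} {S : Set (Set ℂ)} (h : NS K Q S) (hQ : Q ⊆ Q') : NS K Q' S :=
  ⟨h.fin, h.pc, h.disj, fun P hP => (h.sub P hP).trans hQ⟩

lemma CQ.off (O : CQ K Q) : ∀ P ∈ O.1, Off K Q P := O.2.2

lemma CQ.dj (O : CQ K Q) : ∀ P ∈ O.1, Disjoint P Q := fun P hP => (O.off P hP).dj

/-- structures are admissible -/
lemma ns_adm (_hK : IsCompact K) (_hf : Full K) {S : Set (Set ℂ)} (h : NS K Q S) : Adm S where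
  fin := h.fin
  cpt P hP := (h.pc P hP).cpt
  conn P hP := (h.pc P hP).conn
  nontriv P hP := (h.pc P hP).nontriv
  disj := h.disj
  full := (full_sUnion h.fin (fun P hP => ⟨(h.pc P hP).cpt, (h.pc P hP).full⟩) h.disj).2

lemma ns_union {S O : Set (Set ℂ)} (hQ : Q ⊆ lev K 0) (h : NS K Q S) (hO : NS K (lev K 0) O)
    (hd : ∀ P ∈ O, Disjoint P Q) : NS K (lev K 0) (O ∪ S) where
  fin := hO.fin.union h.fin
  pc := by
    rintro P (hP | hP)
    · exact hO.pc P hP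
    · exact h.pc P hP
  disj := by
    rintro P (hP | hP) P' (hP' | hP') hne
    · exact hO.disj P hP P' hP' hne
    · exact (hd P hP).mono_right (h.sub P' hP')
    · exact ((hd P' hP').mono_right (h.sub P hP)).symm
    · exact h.disj P hP P' hP' hne
  sub := by
    rintro P (hP | hP)
    · exact hO.sub P hP
    · exact (h.sub P hP).trans hQ

lemma nd_sub_lev0 (n : ℕ) (x : ℂ) : nd K n x ⊆ lev K 0 :=
  (nd_subset n x).trans (lev_anti (Nat.zero_le n))

/-- the supremum which defines the distance is taken over a bounded family -/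
noncomputable def dF (K Q : Set ℂ) (ρ : ℝ) (a a' : SQ K Q) (x : CQ K Q × sphere (0:ℂ) ρ) : ℝ :=
  ‖KM (x.1.1 ∪ a.1) x.2 - KM (x.1.1 ∪ a'.1) x.2‖

/-- the distance -/
noncomputable def dQ (K Q : Set ℂ) (ρ : ℝ) (a a' : SQ K Q) : ℝ := ⨆ x, dF K Q ρ a a' x

/-- the hypotheses on the data: `ρ` is the radius of a far circle -/
structure Far (K : Set ℂ) (R ρ : ℝ) : Prop where
  cpt : IsCompact K
  full : Full K
  rpos : 0 < R
  sub : lev K 0 ⊆ closedBall 0 R
  lt : 2 * R < ρ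

lemma exists_far (hK : IsCompact K) (hf : Full K) : ∃ R ρ : ℝ, Far K R ρ := by
  obtain ⟨R, hR, hRK⟩ := lev_bdd hK 0
  exact ⟨R, 2 * R + 1, hK, hf, hR, hRK, by linarith⟩

variable {R ρ : ℝ}

lemma Far.pos (h : Far K R ρ) : 0 < ρ := by have := h.rpos; have := h.lt; linarith

/-- the uniform bound at far points -/
lemma Far.bound (h : Far K R ρ) {S : Set (Set ℂ)} (hS : NS K (lev K 0) S) {z : ℂ}
    (hz : 2 * R < ‖z‖) : ‖KM S z - z‖ ≤ 24 * R ^ 2 / ‖z‖ :=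
  (KM_nu (ns_adm h.cpt h.full hS)).tail h.rpos
    (compl_subset_compl.2 (sUnion_subset fun P hP => (hS.sub P hP).trans h.sub)) hz

lemma Far.bound' (h : Far K R ρ) {S : Set (Set ℂ)} (hS : NS K (lev K 0) S)
    (z : sphere (0:ℂ) ρ) : ‖KM S z - z‖ ≤ 24 * R ^ 2 / ρ := by
  have hz : ‖(z : ℂ)‖ = ρ := by simp
  have := h.bound hS (z := z) (by rw [hz]; exact h.lt)
  rwa [hz] at this

lemma Far.union (_h : Far K R ρ) (hQ : Q ⊆ lev K 0) (a : SQ K Q) (O : CQ K Q) :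
    NS K (lev K 0) (O.1 ∪ a.1) := ns_union hQ a.2 O.2.1 O.dj

lemma Far.bdd (h : Far K R ρ) (hQ : Q ⊆ lev K 0) (a a' : SQ K Q) :
    BddAbove (range (dF K Q ρ a a')) := by
  refine ⟨24 * R ^ 2 / ρ + 24 * R ^ 2 / ρ, ?_⟩
  rintro _ ⟨⟨O, z⟩, rfl⟩
  have h1 := h.bound' (h.union hQ a O) z
  have h2 := h.bound' (h.union hQ a' O) z
  have e : KM (O.1 ∪ a.1) z - KM (O.1 ∪ a'.1) z =
      (KM (O.1 ∪ a.1) z - z) - (KM (O.1 ∪ a'.1) z - z) := by ring
  simp only [dF]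
  rw [e]
  exact (norm_sub_le _ _).trans (add_le_add h1 h2)

lemma Far.le_dQ (h : Far K R ρ) (hQ : Q ⊆ lev K 0) (a a' : SQ K Q) (O : CQ K Q)
    (z : sphere (0:ℂ) ρ) : ‖KM (O.1 ∪ a.1) z - KM (O.1 ∪ a'.1) z‖ ≤ dQ K Q ρ a a' :=
  le_ciSup (h.bdd hQ a a') (O, z)

lemma nonempty_CQ : Nonempty (CQ K Q) := ⟨⟨∅, ns_empty, fun _ hP => hP.elim⟩⟩

lemma Far.nonempty (h : Far K R ρ) : Nonempty (CQ K Q × sphere (0:ℂ) ρ) := by
  have h1 : Nonempty (sphere (0:ℂ) ρ) := (NormedSpace.sphere_nonempty.2 h.pos.le).to_subtype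
  have h2 : Nonempty (CQ K Q) := nonempty_CQ
  exact inferInstance

lemma Far.dQ_le (h : Far K R ρ) {a a' : SQ K Q} {C : ℝ}
    (hC : ∀ (O : CQ K Q) (z : sphere (0:ℂ) ρ), ‖KM (O.1 ∪ a.1) z - KM (O.1 ∪ a'.1) z‖ ≤ C) :
    dQ K Q ρ a a' ≤ C := by
  have := h.nonempty (Q := Q)
  exact ciSup_le fun x => hC x.1 x.2

lemma Far.dQ_self (h : Far K R ρ) (a : SQ K Q) : dQ K Q ρ a a = 0 := by
  have := h.nonempty (Q := Q)
  simp [dQ, dF]

lemma dQ_comm (a a' : SQ K Q) : dQ K Q ρ a a' = dQ K Q ρ a' a := by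
  unfold dQ dF
  congr 1
  funext x
  rw [norm_sub_rev]

lemma Far.dQ_nonneg (h : Far K R ρ) (hQ : Q ⊆ lev K 0) (a a' : SQ K Q) : 0 ≤ dQ K Q ρ a a' := by
  obtain ⟨x⟩ := h.nonempty (Q := Q)
  exact (norm_nonneg _).trans (h.le_dQ hQ a a' x.1 x.2)

lemma Far.dQ_triangle (h : Far K R ρ) (hQ : Q ⊆ lev K 0) (a b c : SQ K Q) :
    dQ K Q ρ a c ≤ dQ K Q ρ a b + dQ K Q ρ b c := by
  refine h.dQ_le fun O z => ?_
  have e : KM (O.1 ∪ a.1) z - KM (O.1 ∪ c.1) z =
      (KM (O.1 ∪ a.1) z - KM (O.1 ∪ b.1) z) + (KM (O.1 ∪ b.1) z - KM (O.1 ∪ c.1) z) := by ring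
  rw [e]
  exact (norm_add_le _ _).trans (add_le_add (h.le_dQ hQ a b O z) (h.le_dQ hQ b c O z))

/-- the pseudometric space of structures inside `Q` -/
@[reducible] noncomputable def Far.pms (h : Far K R ρ) (hQ : Q ⊆ lev K 0) :
    PseudoMetricSpace (SQ K Q) where
  dist a a' := dQ K Q ρ a a'
  dist_self a := h.dQ_self a
  dist_comm a a' := dQ_comm a a'
  dist_triangle a b c := h.dQ_triangle hQ a b c

/-- union with a fixed family does not increase the distance -/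
lemma Far.dQ_union_le (h : Far K R ρ) {Q' : Set ℂ} (hQ : Q ⊆ lev K 0) (hQ' : Q' ⊆ Q)
    {a a' : SQ K Q'} {b b' : SQ K Q} {T : Set (Set ℂ)} (hT : NS K Q T)
    (hTd : ∀ P ∈ T, Off K Q' P) (hb : b.1 = T ∪ a.1) (hb' : b'.1 = T ∪ a'.1) :
    dQ K Q ρ b b' ≤ dQ K Q' ρ a a' := by
  refine h.dQ_le fun O z => ?_
  have hO : NS K (lev K 0) (O.1 ∪ T) ∧ ∀ P ∈ O.1 ∪ T, Off K Q' P := by
    refine ⟨ns_union hQ hT O.2.1 O.dj, ?_⟩
    rintro P (hP | hP)
    · exact (O.off P hP).mono hQ'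
    · exact hTd P hP
  have := h.le_dQ (hQ'.trans hQ) a a' ⟨O.1 ∪ T, hO⟩ z
  rw [hb, hb', ← union_assoc, ← union_assoc]
  exact this

end Vale.Agent.P116.G
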