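import Mathlib
import Vale.Agent.P116.Slow.WS

/-!
Weakly slow points are good: structures with arbitrary pieces, and the disks of the merged nodes
converge to the good disk.
-/

open Set Filter Topology Metric Bornology
open scoped Real

namespace Vale.Agent.P116.G

open H906 PBC Slow

variable {K : Set ℂ}

/-- the good disk of the point `x` for the limit map `φ` -/
structure GD (K : Set ℂ) (φ : ℂ → ℂ) (x c : ℂ) (r : ℝ) : Prop where
  nonneg : 0 ≤ r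
  near : ∀ ε > 0, ∃ n, ∀ z ∈ nd K n x, z ∉ K → ‖φ z - c‖ ≤ r + ε
  out : ∀ z ∉ K, r < ‖φ z - c‖

/-- merged nodes at the point `x`: the maps of the merged structures are close to `φ` and the disks
of the merged nodes are close to `D(c, r)` -/
def MD (K : Set ℂ) (𝔊 : Filter Str) (φ : ℂ → ℂ) (x c : ℂ) (r : ℝ) : Prop :=
  ∀ E : Set ℂ, IsCompact E → E ⊆ Kᶜ → ∀ ε > 0, ∀ k₀ : ℕ, ∃ k ≥ k₀, ∀ᶠ S : Str in 𝔊,
    Adm (mrg (nd K k x) S.1) ∧ (∀ z ∈ E, ‖KM (mrg (nd K k x) S.1) z - φ z‖ ≤ ε) ∧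
    ‖kc fk (mS (nd K k x) S) (nd K k x) - c‖ < ε ∧ |kr fk (mS (nd K k x) S) (nd K k x) - r| < ε

theorem wsG (hK : IsCompact K) (hf : Full K) {g : ℂ} (hg : g ∈ K) {𝔊 : Ultrafilter Str}
    (hG : Fine K (𝔊 : Filter Str))
    (hNS : ∀ k, ∀ᶠ S : Str in (𝔊 : Filter Str), Adm (mrg (nd K k g) S.1))
    {ρ₀ : ℝ} (hρ₀ : 0 < ρ₀) (hρK : sphere (0:ℂ) ρ₀ ⊆ Kᶜ)
    (hslow : ∀ ε > 0, ∀ k₀, ∃ k ≥ k₀, ∀ᶠ S : Str in (𝔊 : Filter Str), ∀ z ∈ sphere (0:ℂ) ρ₀,
      ‖kF fk S z - KM (mrg (nd K k g) S.1) z‖ ≤ ε)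
    {φ : ℂ → ℂ} (hφ : TendstoLocallyUniformlyOn (kF fk) φ (𝔊 : Filter Str) Kᶜ) :
    GoodAt fk K (𝔊 : Filter Str) g ∧ ∃ c r, GD K φ g c r ∧ MD K (𝔊 : Filter Str) φ g c r := by
  classical
  obtain ⟨R, hR, hRK⟩ := lev_bdd hK 0
  set R' := R + 1 with hR'
  have hR'0 : 0 < R' := by positivity
  -- levels
  have hs : ∀ n : ℕ, ∃ k ≥ n, ∀ᶠ S : Str in (𝔊 : Filter Str), ∀ z ∈ sphere (0:ℂ) ρ₀,
      ‖kF fk S z - KM (mrg (nd K k g) S.1) z‖ ≤ 1 / ((n:ℝ) + 1) := fun n =>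
    hslow _ (by positivity) n
  choose k hkn hk using hs
  have hadm : ∀ n, ∀ᶠ S : Str in (𝔊 : Filter Str), Adm (mrg (nd K (k n) g) S.1) := by
    intro n
    exact hNS (k n)
  set V : Ultrafilter ℕ := Ultrafilter.of (atTop : Filter ℕ) with hV
  have hVtop : (V : Filter ℕ) ≤ atTop := Ultrafilter.of_le _
  set 𝔊' : Ultrafilter Str := V.bind fun n => 𝔊.map (mS (nd K (k n) g)) with h𝔊'
  have hev : ∀ p : Str → Prop, (∀ᶠ S in (𝔊' : Filter Str), p S) ↔
      ∀ᶠ n in (V : Filter ℕ), ∀ᶠ S in (𝔊 : Filter Str), p (mS (nd K (k n) g) S) := by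
    intro p
    have : (𝔊' : Filter Str) = Filter.bind (V : Filter ℕ)
        (fun n => ((𝔊.map (mS (nd K (k n) g)) : Ultrafilter Str) : Filter Str)) := rfl
    rw [this, Filter.eventually_bind]
    rfl
  have hG' : Fine K (𝔊' : Filter Str) := by
    intro n
    rw [hev]
    filter_upwards [hVtop (eventually_ge_atTop n)] with m hm
    filter_upwards [hadm m, hG n] with S hS1 hS2 P hP
    rw [mS_val hS1] at hP
    rcases hP with rfl | ⟨hP, -⟩
    · exact (nd_subset _ _).trans (lev_anti (hm.trans (hkn m)))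
    · exact hS2 P hP
  have hφ' : TendstoLocallyUniformlyOn (kF fk) φ (𝔊' : Filter Str) Kᶜ := by
    refine lim_of_circle hK hf hG hG' hρ₀ hρK hφ fun z hz => ?_
    rw [Metric.tendsto_nhds]
    intro ε hε
    rw [hev]
    obtain ⟨N, hN⟩ := exists_nat_one_div_lt (show (0:ℝ) < ε / 2 by positivity)
    filter_upwards [hVtop (eventually_ge_atTop N)] with n hn
    filter_upwards [hadm n, hk n, (Metric.tendsto_nhds.1 (hφ.tendsto_at (hρK hz)) (ε / 2)
      (by positivity))] with S h1 h2 h3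
    have h4 := h2 z hz
    rw [kF_mS h1]
    have h5 : 1 / ((n:ℝ) + 1) ≤ 1 / ((N:ℝ) + 1) := by
      have : (N:ℝ) ≤ n := by exact_mod_cast hn
      gcongr
    have h6 := dist_triangle (KM (mrg (nd K (k n) g) S.1) z) (kF fk S z) (φ z)
    have h7 : dist (KM (mrg (nd K (k n) g) S.1) z) (kF fk S z) =
        ‖kF fk S z - KM (mrg (nd K (k n) g) S.1) z‖ := by
      rw [dist_comm, dist_eq_norm]
    linarith
  have hbd₀ : ∀ 𝔉 : Ultrafilter Str, Fine K (𝔉 : Filter Str) →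
      ∀ᶠ S : Str in (𝔉 : Filter Str), (⋃₀ S.1 : Set ℂ) ⊆ closedBall (0:ℂ) R := by
    intro 𝔉 hF
    filter_upwards [hF 0] with S hS
    exact sUnion_subset fun P hP => (hS P hP).trans hRK
  -- the disks
  have hpg : ∀ᶠ S in (𝔊' : Filter Str), ∃ P ∈ S.1, g ∈ P := by
    rw [hev]
    refine Eventually.of_forall fun n => ?_
    filter_upwards [hadm n] with S hS
    rw [mS_val hS]
    exact ⟨_, mem_insert _ _, mem_nd hg _⟩
  set cS : Str → ℂ := fun S => kc fk S (pg g S) with hcS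
  set rS : Str → ℝ := fun S => kr fk S (pg g S) with hrS
  have hr0 : ∀ᶠ S in (𝔊' : Filter Str), 0 ≤ rS S := by
    filter_upwards [hpg] with S hS
    exact ((kmap fk S).rpos _ (pg_mem hS).1).le
  have hbd : ∀ᶠ S in (𝔊' : Filter Str), ‖cS S‖ ≤ 5 * R' ∧ rS S ≤ 5 * R' := by
    filter_upwards [hpg, hbd₀ 𝔊' hG', hr0] with S hS hS2 hS3
    obtain ⟨hP1, hP2⟩ := pg_mem hS
    have h1 : kT fk S (ball 0 R') ⊆ closedBall 0 (5 * R') :=
      (kmap fk S).Tm_bound S.2 hR'0 (hS2.trans (closedBall_subset_closedBall (by linarith)))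
    refine disk_bdd hS3 ?_
    intro w hw
    refine h1 (Or.inr (mem_iUnion₂.2 ⟨pg g S, ⟨hP1, g, ?_, hP2⟩, hw⟩))
    have := hS2 (subset_sUnion_of_mem hP1 hP2)
    rw [mem_closedBall] at this
    rw [mem_ball]
    linarith
  obtain ⟨c, -, hc⟩ := (isCompact_closedBall (0 : ℂ) (5 * R')).ultrafilter_le_nhds
    (𝔊'.map cS) (by
      rw [le_principal_iff, Ultrafilter.coe_map, Filter.mem_map]
      filter_upwards [hbd] with S hS
      rw [mem_preimage, mem_closedBall, dist_zero_right]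
      exact hS.1)
  obtain ⟨r, -, hr⟩ := (isCompact_Icc (a := (0:ℝ)) (b := 5 * R')).ultrafilter_le_nhds
    (𝔊'.map rS) (by
      rw [le_principal_iff, Ultrafilter.coe_map, Filter.mem_map]
      filter_upwards [hbd, hr0] with S hS hS2
      exact ⟨hS2, hS.2⟩)
  have hc' : Tendsto cS 𝔊' (𝓝 c) := hc
  have hr' : Tendsto rS 𝔊' (𝓝 r) := hr
  have hrr : 0 ≤ r := ge_of_tendsto hr' hr0
  have key1 : ∀ z ∉ K, r < ‖φ z - c‖ := by
    intro z hz
    exact lt_of_disks hK hf hG' hφ' hc' hr' hr0 (by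
      filter_upwards [hpg] with S hS w hw
      rintro ⟨z, ⟨hz, -⟩, rfl⟩
      exact (kmap fk S).notMem hz (pg_mem hS).1 hw) hz
  suffices key2 : ∀ ε > 0, ∃ n, ∀ᶠ S in (𝔊 : Filter Str),
      kT fk S (nd K n g) ⊆ closedBall c (r + ε) by
    refine ⟨⟨c, r, hrr, key2, ?_⟩, c, r, ⟨hrr, ?_, key1⟩, ?_⟩
    · intro z hz
      have h1 := key1 z hz
      refine ⟨(‖φ z - c‖ - r) / 2, by linarith, ?_⟩
      exact (((hφ.tendsto_at hz).sub_const c).norm).eventually (lt_mem_nhds (by linarith))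
    · intro ε hε
      obtain ⟨n, hn⟩ := key2 ε hε
      refine ⟨n, fun z hz hzK => ?_⟩
      obtain ⟨N, hN⟩ := exists_notMem_lev hK hf hzK
      refine le_of_tendsto (((hφ.tendsto_at hzK).sub_const c).norm) ?_
      filter_upwards [hn, hG N] with S h1 h2
      have h3 : kF fk S z ∈ kT fk S (nd K n g) := by
        refine Or.inl ⟨z, ⟨hz, ?_⟩, rfl⟩
        rintro ⟨P, hP, hzP⟩
        exact hN (h2 P hP hzP)
      have h4 := h1 h3
      rwa [mem_closedBall, dist_eq_norm] at h4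
    · intro E hE hEK ε hε k₀
      have h1 : ∀ᶠ S in (𝔊' : Filter Str), ∀ z ∈ E, dist (φ z) (kF fk S z) < ε :=
        Metric.tendstoUniformlyOn_iff.1
          ((tendstoLocallyUniformlyOn_iff_tendstoUniformlyOn_of_compact hE).1
            (hφ'.mono hEK)) ε hε
      have h2 : ∀ᶠ S in (𝔊' : Filter Str), ‖kc fk S (pg g S) - c‖ < ε := by
        filter_upwards [hc'.eventually (ball_mem_nhds c hε)] with S hS
        have hS' : dist (cS S) c < ε := hS
        rwa [dist_eq_norm] at hS'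
      have h3 : ∀ᶠ S in (𝔊' : Filter Str), |kr fk S (pg g S) - r| < ε := by
        filter_upwards [hr'.eventually (ball_mem_nhds r hε)] with S hS
        have hS' : dist (rS S) r < ε := hS
        rwa [Real.dist_eq] at hS'
      have h4 := h1.and (h2.and h3)
      rw [hev] at h4
      obtain ⟨n, hn, hn2⟩ := (h4.and (hVtop (eventually_ge_atTop k₀))).exists
      refine ⟨k n, hn2.trans (hkn n), ?_⟩
      filter_upwards [hn, hadm n] with S hS hS2
      have hpgS : pg g (mS (nd K (k n) g) S) = nd K (k n) g :=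
        pg_eq (by rw [mS_val hS2]; exact mem_insert _ _) (mem_nd hg _)
      obtain ⟨a1, a2, a3⟩ := hS
      rw [hpgS] at a2 a3
      refine ⟨hS2, fun z hz => ?_, a2, a3⟩
      have h5 := a1 z hz
      rw [dist_comm, dist_eq_norm, kF_mS hS2] at h5
      exact h5.le
  intro ε hε
  by_contra hbad
  rw [not_exists] at hbad
  obtain ⟨w₀, hw1, hw2, hw3⟩ := exists_w0 hK hf hG hg hφ (cS := fun _ => c) (rS := fun _ => r)
    tendsto_const_nhds tendsto_const_nhds (Eventually.of_forall fun _ => hrr) hε hbad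
  set Q := nd K 0 g with hQ
  obtain ⟨δ₁, hδ₁, hQev⟩ := hw2 0
  obtain ⟨m, hm0, hm⟩ : ∃ m : ℕ, 0 < m ∧ π * (5 * R') ^ 2 + 2 * π + 36 + 1 ≤ ε / 8 * √m := by
    have h1 : Tendsto (fun m : ℕ => ε / 8 * √(m:ℝ)) atTop atTop :=
      (Real.tendsto_sqrt_atTop.comp tendsto_natCast_atTop_atTop).const_mul_atTop (by positivity)
    obtain ⟨m, hm1, hm2⟩ := ((h1.eventually_ge_atTop (π * (5 * R') ^ 2 + 2 * π + 36 + 1)).and
      (eventually_gt_atTop 0)).exists
    exact ⟨m, hm2, hm1⟩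
  obtain ⟨ρ, hρ1, hρ2, hρ3⟩ := choose_annuli (K := K) (𝔊 := 𝔊) (g := g) (w₀ := w₀)
    (fun η hη => small_disks hK hf hG hg hw2 hη) hδ₁ m
  obtain ⟨k₀, hk₀, hmin⟩ := (Finset.range m).exists_min_image ρ ⟨0, by simpa using hm0⟩
  set τ := min (ρ k₀) (ε / 8) with hτ
  have hτ0 : 0 < τ := lt_min (hρ1 k₀).1 (by positivity)
  obtain ⟨z, hzK, hzw⟩ := hw3 τ hτ0
  obtain ⟨N, hN⟩ := exists_notMem_lev hK hf hzK
  set pA : Str → Prop := fun S => ‖kF fk S z - w₀‖ < τ ∧ (⋃₀ S.1 : Set ℂ) ⊆ closedBall (0:ℂ) R ∧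
      z ∉ (⋃₀ S.1 : Set ℂ) ∧ (∀ P ∈ S.1, (P ∩ Q).Nonempty → P ⊆ Q) with hpA
  have hA : ∀ 𝔉 : Ultrafilter Str, Fine K (𝔉 : Filter Str) →
      TendstoLocallyUniformlyOn (kF fk) φ (𝔉 : Filter Str) Kᶜ →
      ∀ᶠ S in (𝔉 : Filter Str), pA S := by
    intro 𝔉 hF hφF
    have h1 : Tendsto (fun S => ‖kF fk S z - w₀‖) 𝔉 (𝓝 ‖φ z - w₀‖) :=
      ((hφF.tendsto_at hzK).sub_const w₀).norm
    filter_upwards [h1.eventually (gt_mem_nhds hzw), hbd₀ 𝔉 hF, hF N, hF 0] with S h2 h3 h4 h5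
    refine ⟨h2, h3, ?_, fun P hP hne => hole_in_node hK S h5 hP (by rwa [inter_comm])⟩
    rintro ⟨P, hP, hzP⟩
    exact hN (h4 P hP hzP)
  have hA' : ∀ᶠ S in (𝔊' : Filter Str), pA S ∧ ‖cS S - c‖ < ε / 8 ∧ |rS S - r| < ε / 8 := by
    filter_upwards [hA 𝔊' hG' hφ', hc'.eventually (ball_mem_nhds c (show 0 < ε / 8 by positivity)),
      hr'.eventually (ball_mem_nhds r (show 0 < ε / 8 by positivity))] with S h1 h2 h3
    refine ⟨h1, ?_, ?_⟩
    · rwa [dist_eq_norm] at h2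
    · rwa [Real.dist_eq] at h3
  rw [hev] at hA'
  obtain ⟨n, hn⟩ := hA'.exists
  set L := nd K (k n) g with hL
  have hLQ : L ⊆ Q := nd_anti (Nat.zero_le _)
  obtain ⟨δ₂, hδ₂, hLev⟩ := hw2 (k n)
  obtain ⟨S, ⟨⟨hA1, hA2, hA3, hA4⟩, hA5, hA6⟩, ⟨hB1, hB2, hB3, hB4⟩, hSadm, hSfine, hBQ, hBL, hBone⟩ :=
    (hn.and ((hA 𝔊 hG hφ).and ((hadm n).and ((hG (k n)).and (hQev.and (hLev.and
      (hρ3 (k n)))))))).exists
  set S' := mS L S with hS'
  have hS'v : S'.1 = mrg L S.1 := mS_val hSadm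
  have hLS' : L ∈ S'.1 := by
    rw [hS'v]
    exact mem_insert _ _
  have hpgS' : pg g S' = L := pg_eq hLS' (mem_nd hg _)
  have hJ : ∀ P ∈ S.1, P ∈ S'.1 ∧ Disjoint P L ∨ P ⊆ L := by
    intro P hP
    by_cases hd : Disjoint P L
    · left
      refine ⟨?_, hd⟩
      rw [hS'v]
      exact Or.inr ⟨hP, hd⟩
    · right
      rw [not_disjoint_iff_nonempty_inter, inter_comm] at hd
      exact hole_in_node hK S hSfine hP hd
  have hJ2 : ∀ P ∈ S'.1, P ⊆ Q → P ∈ S.1 ∨ P = L := by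
    intro P hP _
    rw [hS'v] at hP
    rcases hP with h1 | ⟨h1, -⟩
    · exact Or.inr h1
    · exact Or.inl h1
  have hmap := kmap fk S
  have hQR : Q ⊆ ball 0 R' := by
    intro y hy
    have h1 : y ∈ lev K 0 := nd_subset 0 g hy
    have h2 := hRK h1
    rw [mem_closedBall] at h2
    rw [mem_ball]
    linarith
  have hR2 : closedBall (0:ℂ) R ⊆ closedBall 0 R' := closedBall_subset_closedBall (by linarith)
  have h2ρ : ∀ k, ball w₀ (2 * ρ k) ⊆ ball w₀ δ₁ := fun k => ball_subset_ball (hρ1 k).2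
  have hfin := two2 fk S S' (Q := Q) (L := L) hR'0 hQR (hB2.trans hR2) (hA2.trans hR2) hB4 hA4 hLS'
    (fun P hP _ => (hJ P hP).imp And.left id) hJ2 (hBL (mem_ball_self hδ₂)) hm0
    (fun k _ => (hρ1 k).1) (fun k _ l _ hkl => hρ2 k l hkl)
    (fun k _ => (h2ρ k).trans hBQ)
    (fun P hP _ hPL k hk l hl h1 h2 => by
      rcases hJ P hP with ⟨-, h3⟩ | h3
      · exact hBone P hP h3 k hk l hl h1 h2
      · exact absurd h3 hPL)
    (fun J hJ k _ => pack_round J (fun P hP => hmap.rpos P (hJ P hP))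
      (fun P hP P' hP' hne => hmap.disj P (hJ P hP) P' (hJ P' hP') hne) w₀ (hρ1 k).1)
    (ε := ε / 8) (by positivity) hm hB3 hA3 (z := z)
    (fun k hk => by
      rw [mem_ball, dist_eq_norm]
      exact hB1.trans_le ((min_le_left _ _).trans (hmin k (by simpa using hk))))
  have h4 : kc fk S' L = cS S' := by rw [hcS]; simp only; rw [hpgS']
  have h5 : kr fk S' L = rS S' := by rw [hrS]; simp only; rw [hpgS']
  rw [mem_closedBall, h4, h5, dist_eq_norm] at hfin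
  have h6 : ‖w₀ - c‖ ≤ ‖kF fk S' z - w₀‖ + ‖kF fk S' z - cS S'‖ + ‖cS S' - c‖ := by
    have e : w₀ - c = -(kF fk S' z - w₀) + (kF fk S' z - cS S') + (cS S' - c) := by ring
    rw [e]
    refine (norm_add₃_le).trans ?_
    rw [norm_neg]
  have h7 : τ ≤ ε / 8 := min_le_right _ _
  rw [abs_lt] at hA6
  linarith [hA6.2]

end Vale.Agent.P116.G
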