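import Mathlib
import Vale.Agent.P116.G.Def
import Vale.Agent.P116.G.WS
import Vale.Agent.P116.Slow.LocA

/-!
# The output of the blocks [P] and [V]: a fair law of limit maps

`FSt K B Ω P g 𝔊`: a random limit map `g ω` of structures with general pieces in the budget
families `B t δ`; each point of `K` is almost surely good. And its immediate consequences.
-/

open Set Filter Topology Metric Bornology MeasureTheory

namespace Vale.Agent.P116.G

open H906 PBC Slow

/-- a fair law: `Ω` compact metrizable with a Borel probability measure `P`, limit maps `g ω`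
(jointly continuous), the structures of `𝔊 ω` converge to `g ω` and are in all the budget families
`B t δ`, `δ > 0`; each point of `K` is almost surely good -/
structure FSt (K : Set ℂ) {Par : Type} (B : Par → ℝ → Set (Set (Set ℂ))) (Ω : Type)
    [TopologicalSpace Ω] [MeasurableSpace Ω] (P : Measure Ω) (g : Ω → ℂ → ℂ)
    (𝔊 : Ω → Ultrafilter Str) : Prop where
  cpt : CompactSpace Ω
  metr : TopologicalSpace.MetrizableSpace Ω
  borel : BorelSpace Ω
  prob : IsProbabilityMeasure P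
  cont : ContinuousOn (fun p : Ω × ℂ => g p.1 p.2) (univ ×ˢ Kᶜ)
  nu : ∀ ω, NU Kᶜ (g ω)
  fine : ∀ ω, Fine K (𝔊 ω : Filter Str)
  conv : ∀ ω, TendstoLocallyUniformlyOn (kF fk) (g ω) (𝔊 ω : Filter Str) Kᶜ
  ns : ∀ ω, ∀ᶠ S : Str in (𝔊 ω : Filter Str), G.NS K (lev K 0) S.1
  bud : ∀ ω t, ∀ δ > 0, ∀ᶠ S : Str in (𝔊 ω : Filter Str), S.1 ∈ B t δ
  good : ∀ x ∈ K, ∀ᵐ ω ∂P, GoodAt fk K (𝔊 ω : Filter Str) x

/-- the disk `D(c, r)` is the complementary component of the image of `g` which corresponds to the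
point `x` of `K` -/
structure DiskAt (K : Set ℂ) (g : ℂ → ℂ) (x c : ℂ) (r : ℝ) : Prop where
  nonneg : 0 ≤ r
  compl : closedBall c r ⊆ (g '' Kᶜ)ᶜ
  comp : ∀ w ∈ closedBall c r, connectedComponentIn (g '' Kᶜ)ᶜ w = closedBall c r
  near : ∀ ε > 0, ∃ n, ∀ z ∈ nd K n x, z ∉ K → ‖g z - c‖ ≤ r + ε
  out : ∀ z ∉ K, r < ‖g z - c‖

variable {K : Set ℂ} {𝔊 : Ultrafilter Str} {g : ℂ → ℂ}

lemma DiskAt.of_disked {x c : ℂ} {r : ℝ} (hr : 0 ≤ r) (h1 : closedBall c r ⊆ (g '' Kᶜ)ᶜ)
    (h2 : ∀ w ∈ closedBall c r, connectedComponentIn (g '' Kᶜ)ᶜ w = closedBall c r)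
    (h3 : ∀ ε > 0, ∃ n, g '' (nd K n x \ K) ⊆ closedBall c (r + ε)) : DiskAt K g x c r where
  nonneg := hr
  compl := h1
  comp := h2
  near ε hε := by
    obtain ⟨n, hn⟩ := h3 ε hε
    refine ⟨n, fun z hz hzK => ?_⟩
    have := hn ⟨z, ⟨hz, hzK⟩, rfl⟩
    rwa [mem_closedBall, dist_eq_norm] at this
  out z hz := by
    by_contra hcon
    rw [not_lt] at hcon
    exact h1 (by rwa [mem_closedBall, dist_eq_norm]) ⟨z, hz, rfl⟩

/-- good points have a disk -/
theorem exists_disk (hK : IsCompact K) (hf : Full K) (hG : Fine K (𝔊 : Filter Str))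
    (hg : TendstoLocallyUniformlyOn (kF fk) g (𝔊 : Filter Str) Kᶜ) {x : ℂ}
    (hx : x ∈ K) (hgood : GoodAt fk K (𝔊 : Filter Str) x) :
    ∃ c r, DiskAt K g x c r ∧ (∀ w ∈ closedBall c r, ∀ n, ∀ᶠ S in (𝔊 : Filter Str),
      w ∈ kT fk S (nd K n x)) ∧
      ∀ ε > 0, ∃ n, ∀ᶠ S in (𝔊 : Filter Str), kT fk S (nd K n x) ⊆ closedBall c (r + ε) := by
  obtain ⟨c, r, hr, hG1, hG2⟩ := hgood
  obtain ⟨w, hw, hw1⟩ := exists_shadow hK hf hG hg hx
  obtain ⟨h1, h2, h3⟩ := comp_of_shadow hK hf hG hg hG1 hG2 hw hw1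
  obtain ⟨c', r', hr', h4, h5, h6⟩ := disked_of_good hK hf hG hg hx ⟨c, r, hr, hG1, hG2⟩
  have hD : DiskAt K g x c r := by
    refine DiskAt.of_disked hr h2 (fun v hv => ?_) fun ε hε => ?_
    · rw [← h3]
      rw [← h3] at hv
      exact (connectedComponentIn_eq hv).symm
    · obtain ⟨n, hn⟩ := hG1 ε hε
      refine ⟨n, ?_⟩
      rintro _ ⟨z, ⟨hz, hzK⟩, rfl⟩
      have h4 : Tendsto (fun S => kF fk S z) 𝔊 (𝓝 (g z)) := hg.tendsto_at hzK
      refine isClosed_closedBall.mem_of_tendsto h4 ?_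
      have h5 : ∀ᶠ S : Str in (𝔊 : Filter Str), Disjoint ({z} : Set ℂ) (⋃₀ S.1) :=
        hG.disj hK hf isCompact_singleton (disjoint_singleton_left.2 hzK)
      filter_upwards [hn, h5] with S hS hS2
      exact hS (Or.inl ⟨z, ⟨hz, disjoint_singleton_left.1 hS2⟩, rfl⟩)
  refine ⟨c, r, hD, ?_, hG1⟩
  -- all the points of the disk are in the shadow
  intro v hv n
  have hvw : v ∉ g '' Kᶜ := h2 hv
  obtain ⟨y, hyK, hy⟩ := exists_end hK hf hG hg hvw
  by_cases hne : nd K n y = nd K n x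
  · rw [← hne]
    exact hy n
  exfalso
  -- open sets
  set UU : ℂ → Set ℂ := fun y => {v | ∃ δ > 0, ∀ᶠ S in (𝔊 : Filter Str),
    ball v δ ⊆ kT fk S (nd K n y)} with hUU
  have hopen : ∀ y, IsOpen (UU y) := by
    intro y
    rw [Metric.isOpen_iff]
    rintro v ⟨δ, hδ, hv⟩
    refine ⟨δ / 2, by positivity, fun u hu => ⟨δ / 2, by positivity, ?_⟩⟩
    filter_upwards [hv] with S hS
    refine Subset.trans (ball_subset_ball' ?_) hS
    rw [mem_ball] at hu
    linarith
  have hsep : ∀ y y', nd K n y ≠ nd K n y' → Disjoint (UU y) (UU y') := by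
    intro y y' hne
    rw [disjoint_left]
    rintro v ⟨δ, hδ, hv⟩ ⟨δ', hδ', hv'⟩
    obtain ⟨S, ⟨hS1, hS2⟩, hS3⟩ := ((hv.and hv').and (hG n)).exists
    exact disjoint_left.1 (kT_nd_disjoint (h := fk) hK S hS3 hne) (hS1 (mem_ball_self hδ))
      (hS2 (mem_ball_self hδ'))
  have hwU : w ∈ UU x := ball_in_node hK hf hG hg hw (hw1 n)
  have hvU : v ∈ UU y := ball_in_node hK hf hG hg hvw (hy n)
  have hcov : closedBall c r ⊆ UU x ∪ ⋃ y ∈ {y | nd K n y ≠ nd K n x}, UU y := by
    intro u hu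
    obtain ⟨y, -, hy⟩ := exists_node_val hK hf hG hg (h2 hu) n
    have hyU : u ∈ UU y := ball_in_node hK hf hG hg (h2 hu) hy
    by_cases heq : nd K n y = nd K n x
    · left
      simp only [hUU, mem_ofPred_eq] at hyU ⊢
      rwa [heq] at hyU
    · exact Or.inr (mem_iUnion₂.2 ⟨y, heq, hyU⟩)
  have h7 := isPreconnected_iff_subset_of_disjoint.1
    (convex_closedBall c r).isPreconnected (UU x)
    (⋃ y ∈ {y | nd K n y ≠ nd K n x}, UU y) (hopen x)
    (isOpen_biUnion fun y _ => hopen y) hcov (by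
      rw [eq_empty_iff_forall_notMem]
      rintro u ⟨-, hu1, hu2⟩
      obtain ⟨y, hy, hu3⟩ := mem_iUnion₂.1 hu2
      exact disjoint_left.1 (hsep x y (fun h => hy h.symm)) hu1 hu3)
  rcases h7 with h7 | h7
  · exact disjoint_left.1 (hsep x y (fun h => hne h.symm)) (h7 hv) hvU
  · obtain ⟨y, hy, hu3⟩ := mem_iUnion₂.1 (h7 h1)
    exact disjoint_left.1 (hsep x y (fun h => hy h.symm)) hwU hu3

/-- equal closed balls -/
lemma eq_of_closedBall_eq {c c' : ℂ} {r r' : ℝ} (hr : 0 ≤ r) (hr' : 0 ≤ r')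
    (h : closedBall c r = closedBall c' r') : c = c' ∧ r = r' := by
  have key : ∀ {c c' : ℂ} {r r' : ℝ}, 0 ≤ r → closedBall c r ⊆ closedBall c' r' →
      r + ‖c - c'‖ ≤ r' := by
    intro c c' r r' hr h
    by_cases hcc : c - c' = 0
    · have h1 : c + r ∈ closedBall c' r' := h (by
        rw [mem_closedBall, dist_eq_norm, add_sub_cancel_left, Complex.norm_real,
          Real.norm_of_nonneg hr])
      rw [mem_closedBall, dist_eq_norm] at h1
      have e : c + (r:ℂ) - c' = r := by linear_combination hcc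
      rw [e, Complex.norm_real, Real.norm_of_nonneg hr] at h1
      rw [hcc, norm_zero]
      linarith
    · have hp : 0 < ‖c - c'‖ := norm_pos_iff.2 hcc
      have hne : (‖c - c'‖ : ℂ) ≠ 0 := by exact_mod_cast hp.ne'
      have h1 : c + ((r / ‖c - c'‖ : ℝ) : ℂ) * (c - c') ∈ closedBall c' r' := h (by
        rw [mem_closedBall, dist_eq_norm, add_sub_cancel_left, norm_mul, Complex.norm_real,
          Real.norm_of_nonneg (by positivity), div_mul_cancel₀ _ hp.ne'])
      rw [mem_closedBall, dist_eq_norm] at h1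
      have e : c + ((r / ‖c - c'‖ : ℝ) : ℂ) * (c - c') - c' =
          (((r + ‖c - c'‖) / ‖c - c'‖ : ℝ) : ℂ) * (c - c') := by
        push_cast
        field_simp
        ring
      rw [e, norm_mul, Complex.norm_real, Real.norm_of_nonneg (by positivity),
        div_mul_cancel₀ _ hp.ne'] at h1
      exact h1
  have h1 := key hr h.subset
  have h2 := key hr' h.symm.subset
  rw [norm_sub_rev] at h2
  have h3 : ‖c - c'‖ = 0 := le_antisymm (by linarith) (norm_nonneg _)
  rw [h3] at h1 h2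
  exact ⟨sub_eq_zero.1 (norm_eq_zero.1 h3), by linarith⟩

/-- the disk of a point is unique -/
theorem DiskAt.unique {x c c' : ℂ} {r r' : ℝ} (hx : x ∈ K)
    (h : DiskAt K g x c r) (h' : DiskAt K g x c' r') : c = c' ∧ r = r' := by
  have hne : (closedBall c r ∩ closedBall c' r').Nonempty := by
    have h1 : ∀ k : ℕ, ∃ w, ‖w - c‖ ≤ r + 1 / ((k:ℝ) + 1) ∧ ‖w - c'‖ ≤ r' + 1 / ((k:ℝ) + 1) := by
      intro k
      obtain ⟨n, hn⟩ := h.near (1 / ((k:ℝ) + 1)) (by positivity)
      obtain ⟨n', hn'⟩ := h'.near (1 / ((k:ℝ) + 1)) (by positivity)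
      obtain ⟨z, hz, hzK⟩ : ∃ z ∈ nd K (max n n') x, z ∉ K := by
        by_contra hcon
        push Not at hcon
        have hsub : nd K (max n n') x ⊆ K := hcon
        have h2 : frontier (nd K (max n n') x) = ∅ := by
          rw [← subset_empty_iff]
          intro z hz
          have h3 : z ∈ closure (nd K (max n n') x) := hz.1
          by_cases hz' : z ∈ nd K (max n n') x
          · exact disjoint_left.1 (frontier_nd_disjoint _ x) hz (hsub hz')
          · -- `nd` is relatively closed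
            have h4 : nd K (max n n') x ⊆ lev K (max n n') := nd_subset _ _
            have h5 : z ∈ lev K (max n n') := closure_minimal h4 (isClosed_lev _) h3
            have h6 : insert z (nd K (max n n') x) ⊆ nd K (max n n') x := by
              refine IsPreconnected.subset_connectedComponentIn ?_
                (mem_insert_of_mem _ (mem_nd hx _)) (insert_subset h5 h4)
              exact (isPreconnected_nd _ x).subset_closure (subset_insert _ _)
                (insert_subset h3 subset_closure)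
            exact hz' (h6 (mem_insert _ _))
        rcases frontier_eq_empty_iff.1 h2 with h4 | h4
        · have := mem_nd hx (max n n')
          rw [h4] at this
          exact this
        · have h5 : (univ : Set ℂ) ⊆ K := by
            rw [← h4]
            exact hsub
          have h6 := h.compl
          have h7 : g '' Kᶜ = ∅ := by
            have : Kᶜ = ∅ := by
              rw [← subset_empty_iff]
              intro y hy
              exact hy (h5 (mem_univ y))
            rw [this, image_empty]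
          -- the complement is the plane, which is not a ball
          have h8 := h.comp c (mem_closedBall_self h.nonneg)
          rw [h7, compl_empty, connectedComponentIn_univ,
            PreconnectedSpace.connectedComponent_eq_univ] at h8
          have h9 : Bornology.IsBounded (univ : Set ℂ) := by
            rw [h8]
            exact isBounded_closedBall
          exact (NormedSpace.unbounded_univ ℝ ℂ) h9
      exact ⟨g z, hn z (nd_anti (le_max_left _ _) hz) hzK,
        hn' z (nd_anti (le_max_right _ _) hz) hzK⟩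
    choose w hw hw' using h1
    obtain ⟨v, -, φ, hφ, hv⟩ := (isCompact_closedBall c (r + 1)).tendsto_subseq (x := w) (by
      intro k
      rw [mem_closedBall, dist_eq_norm]
      refine (hw k).trans ?_
      have : 1 / ((k:ℝ) + 1) ≤ 1 := by
        rw [div_le_one (by positivity)]
        have : (0:ℝ) ≤ k := Nat.cast_nonneg k
        linarith
      linarith)
    have hlim : Tendsto (fun k => 1 / ((φ k : ℝ) + 1)) atTop (𝓝 0) :=
      (tendsto_one_div_add_atTop_nhds_zero_nat (𝕜 := ℝ)).comp hφ.tendsto_atTop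
    refine ⟨v, ?_, ?_⟩
    · rw [mem_closedBall, dist_eq_norm]
      have h2 : Tendsto (fun k => ‖w (φ k) - c‖) atTop (𝓝 ‖v - c‖) := (hv.sub_const c).norm
      have h3 : Tendsto (fun k => r + 1 / ((φ k : ℝ) + 1)) atTop (𝓝 (r + 0)) := hlim.const_add r
      rw [add_zero] at h3
      exact le_of_tendsto_of_tendsto h2 h3 (Eventually.of_forall fun k => hw _)
    · rw [mem_closedBall, dist_eq_norm]
      have h2 : Tendsto (fun k => ‖w (φ k) - c'‖) atTop (𝓝 ‖v - c'‖) := (hv.sub_const c').norm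
      have h3 : Tendsto (fun k => r' + 1 / ((φ k : ℝ) + 1)) atTop (𝓝 (r' + 0)) := hlim.const_add r'
      rw [add_zero] at h3
      exact le_of_tendsto_of_tendsto h2 h3 (Eventually.of_forall fun k => hw' _)
  obtain ⟨w, hw, hw'⟩ := hne
  exact eq_of_closedBall_eq h.nonneg h'.nonneg ((h.comp w hw).symm.trans (h'.comp w hw'))

/-- different components have disjoint disks -/
theorem disk_disj (hK : IsCompact K) (hf : Full K) (hG : Fine K (𝔊 : Filter Str))
    (hg : TendstoLocallyUniformlyOn (kF fk) g (𝔊 : Filter Str) Kᶜ) {x x' : ℂ}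
    (hx : x ∈ K) (hx' : x' ∈ K) (hne : connectedComponentIn K x ≠ connectedComponentIn K x')
    (hgood : GoodAt fk K (𝔊 : Filter Str) x) (hgood' : GoodAt fk K (𝔊 : Filter Str) x')
    {c c' : ℂ} {r r' : ℝ} (h : DiskAt K g x c r) (h' : DiskAt K g x' c' r') :
    Disjoint (closedBall c r) (closedBall c' r') := by
  obtain ⟨c₁, r₁, hd, hs, -⟩ := exists_disk hK hf hG hg hx hgood
  obtain ⟨c₁', r₁', hd', hs', -⟩ := exists_disk hK hf hG hg hx' hgood'
  obtain ⟨rfl, rfl⟩ := hd.unique hx h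
  obtain ⟨rfl, rfl⟩ := hd'.unique hx' h'
  obtain ⟨n, hn⟩ : ∃ n, nd K n x ≠ nd K n x' := by
    by_contra hcon
    push Not at hcon
    apply hne
    rw [← iInter_nd hK hf hx, ← iInter_nd hK hf hx']
    exact iInter_congr hcon
  rw [disjoint_left]
  intro v hv hv'
  obtain ⟨S, ⟨h1, h2⟩, h3⟩ := (((hs v hv n).and (hs' v hv' n)).and (hG n)).exists
  exact disjoint_left.1 (kT_nd_disjoint (h := fk) hK S h3 hn) h1 h2

section

variable {Par : Type} {B : Par → ℝ → Set (Set (Set ℂ))} {Ω : Type} [TopologicalSpace Ω]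
  [MeasurableSpace Ω] {P : Measure Ω} {gg : Ω → ℂ → ℂ} {𝔉 : Ω → Ultrafilter Str}

/-- **the end**: if the limit map is almost surely constant then it maps `Kᶜ` onto a circle domain -/
theorem koebe_of_const (hK : IsCompact K) (hf : Full K) (h : FSt K B Ω P gg 𝔉) {g₀ : ℂ → ℂ}
    (h₀ : ∀ᵐ ω ∂P, EqOn (gg ω) g₀ Kᶜ) :
    NU Kᶜ g₀ ∧ ∀ w ∉ g₀ '' Kᶜ, ∃ (c : ℂ) (r : ℝ), 0 ≤ r ∧
      connectedComponentIn (g₀ '' Kᶜ)ᶜ w = closedBall c r := by
  have := h.prob
  obtain ⟨ω₁, h₁⟩ := h₀.exists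
  have hc₁ : TendstoLocallyUniformlyOn (kF fk) g₀ (𝔉 ω₁ : Filter Str) Kᶜ :=
    (h.conv ω₁).congr_right h₁
  have hbd : ∃ R > 0, lev K 0 ⊆ closedBall (0:ℂ) R := lev_bdd hK 0
  obtain ⟨R, hR, hRK⟩ := hbd
  have hexh := (h.fine ω₁).exh (h := fk) hK hf hR hRK
  refine ⟨hexh.lim_nu hc₁, fun w hw => ?_⟩
  refine assembly hK hf (h.fine ω₁) hc₁ (fun x hx => ?_) hw
  obtain ⟨ω, h2, h3⟩ := (h₀.and (h.good x hx)).exists
  exact goodAt_of_lim hK hf (h.fine ω) (h.fine ω₁) ((h.conv ω).congr_right h2) hc₁ h3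

end

end Vale.Agent.P116.G
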