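import Mathlib
import Vale.Agent.P116.G.Def
import Vale.Agent.P116.Slow.Tree

/-!
# The tree of nodes, with the spaces of structures with general pieces, and joins
-/

open Set Filter Topology Metric Bornology

namespace Vale.Agent.P116.G

open H906 Slow
open PBC (nodes_disj)

variable {K Q : Set ℂ} {S : Set (Set ℂ)}

theorem ns_rs (h : NS K Q S) (R : Set ℂ) : NS K R (PBC.rs R S) where
  fin := h.fin.subset fun _ h => h.1
  pc P hP := h.pc P hP.1
  disj P hP P' hP' := h.disj P hP.1 P' hP'.1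
  sub P hP := hP.2

theorem ns_mrg {L : Set ℂ} (h : NS K L S) (hQ : Pc K Q) (hQL : Q ⊆ L) : NS K L (mrg Q S) where
  fin := (h.fin.subset fun _ h => h.1).insert Q
  pc := by
    rintro A (rfl | hA)
    · exact hQ
    · exact h.pc A hA.1
  disj := by
    rintro A (rfl | hA) A' (rfl | hA') hne
    · exact absurd rfl hne
    · exact hA'.2.symm
    · exact hA.2
    · exact h.disj A hA.1 A' hA'.1 hne
  sub := by
    rintro A (rfl | hA)
    · exact hQL
    · exact h.sub A hA.1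

/-! ### the distance of unions -/

/-- the distance, for raw families -/
noncomputable def dd (K Q : Set ℂ) (ρ : ℝ) (S S' : Set (Set ℂ)) : ℝ :=
  ⨆ x : CQ K Q × sphere (0:ℂ) ρ, ‖KM (x.1.1 ∪ S) x.2 - KM (x.1.1 ∪ S') x.2‖

lemma dQ_eq_dd (ρ : ℝ) (a a' : SQ K Q) : dQ K Q ρ a a' = dd K Q ρ a.1 a'.1 := rfl

lemma Far.le_dd {ρ₀ ρ : ℝ} (h : Far K ρ₀ ρ) (hQ : Q ⊆ lev K 0) {S S' : Set (Set ℂ)}
    (hS : NS K Q S) (hS' : NS K Q S') {O : Set (Set ℂ)} (hO : NS K (lev K 0) O)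
    (hOQ : ∀ P ∈ O, Off K Q P) (z : sphere (0:ℂ) ρ) :
    ‖KM (O ∪ S) z - KM (O ∪ S') z‖ ≤ dd K Q ρ S S' :=
  h.le_dQ hQ ⟨S, hS⟩ ⟨S', hS'⟩ ⟨O, hO, hOQ⟩ z

/-- union of families inside disjoint sets is 1-Lipschitz for the sum of the distances -/
theorem Far.dd_biUnion {ρ₀ ρ : ℝ} (h : Far K ρ₀ ρ) (C : Finset (Set ℂ))
    {H H' : Set ℂ → Set (Set ℂ)} (hC : ∀ R ∈ C, R ⊆ lev K 0)
    (hCn : ∀ R ∈ C, ∃ m, ∃ y ∈ K, R = nd K m y)
    (hd : ∀ R ∈ C, ∀ R' ∈ C, R ≠ R' → Disjoint R R')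
    (hH : ∀ R ∈ C, NS K R (H R)) (hH' : ∀ R ∈ C, NS K R (H' R)) {O : Set (Set ℂ)}
    (hO : NS K (lev K 0) O) (hOC : ∀ P ∈ O, ∀ R ∈ C, Off K R P) (z : sphere (0:ℂ) ρ) :
    ‖KM (O ∪ ⋃ R ∈ C, H R) z - KM (O ∪ ⋃ R ∈ C, H' R) z‖ ≤ ∑ R ∈ C, dd K R ρ (H R) (H' R) := by
  classical
  induction C using Finset.induction_on generalizing O with
  | empty => simp
  | @insert R C hRC ih =>
    have e1 : O ∪ ⋃ A ∈ insert R C, H A = (O ∪ ⋃ A ∈ C, H A) ∪ H R := by
      rw [Finset.set_biUnion_insert]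
      ac_rfl
    have e2 : O ∪ ⋃ A ∈ insert R C, H' A = (O ∪ H' R) ∪ ⋃ A ∈ C, H' A := by
      rw [Finset.set_biUnion_insert]
      ac_rfl
    have e3 : (O ∪ ⋃ A ∈ C, H A) ∪ H' R = (O ∪ H' R) ∪ ⋃ A ∈ C, H A := by ac_rfl
    have hR := Finset.mem_insert_self R C
    have hm : ∀ A ∈ C, A ∈ insert R C := fun A hA => Finset.mem_insert_of_mem hA
    have hne : ∀ A ∈ C, A ≠ R := fun A hA h => hRC (h ▸ hA)
    -- the context of `R`
    have hO1 : NS K (lev K 0) (O ∪ ⋃ A ∈ C, H A) := by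
      refine ⟨hO.fin.union (C.finite_toSet.biUnion fun A hA => (hH A (hm A hA)).fin), ?_, ?_, ?_⟩
      · rintro P (hP | hP)
        · exact hO.pc P hP
        · obtain ⟨A, hA, hPA⟩ := mem_iUnion₂.1 hP
          exact (hH A (hm A hA)).pc P hPA
      · rintro P (hP | hP) P' (hP' | hP') hPP
        · exact hO.disj P hP P' hP' hPP
        · obtain ⟨A, hA, hPA⟩ := mem_iUnion₂.1 hP'
          exact (hOC P hP A (hm A hA)).dj.mono_right ((hH A (hm A hA)).sub P' hPA)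
        · obtain ⟨A, hA, hPA⟩ := mem_iUnion₂.1 hP
          exact ((hOC P' hP' A (hm A hA)).dj.mono_right ((hH A (hm A hA)).sub P hPA)).symm
        · obtain ⟨A, hA, hPA⟩ := mem_iUnion₂.1 hP
          obtain ⟨A', hA', hPA'⟩ := mem_iUnion₂.1 hP'
          by_cases hAA : A = A'
          · subst hAA
            exact (hH A (hm A hA)).disj P hPA P' hPA' hPP
          · exact (hd A (hm A hA) A' (hm A' hA') hAA).mono ((hH A (hm A hA)).sub P hPA)
              ((hH A' (hm A' hA')).sub P' hPA')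
      · rintro P (hP | hP)
        · exact hO.sub P hP
        · obtain ⟨A, hA, hPA⟩ := mem_iUnion₂.1 hP
          exact ((hH A (hm A hA)).sub P hPA).trans (hC A (hm A hA))
    have h1 : ∀ P ∈ O ∪ ⋃ A ∈ C, H A, Off K R P := by
      rintro P (hP | hP)
      · exact hOC P hP R hR
      · obtain ⟨A, hA, hPA⟩ := mem_iUnion₂.1 hP
        obtain ⟨m, y, hy, hAy⟩ := hCn A (hm A hA)
        refine ⟨m, y, hy, ?_, ?_⟩
        · rw [← hAy]
          exact (hH A (hm A hA)).sub P hPA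
        · rw [← hAy]
          exact hd A (hm A hA) R hR (hne A hA)
    have h2 := h.le_dd (hC R hR) (hH R hR) (hH' R hR) hO1 h1 z
    have hO2 : NS K (lev K 0) (O ∪ H' R) :=
      ns_union (hC R hR) (hH' R hR) hO fun P hP => (hOC P hP R hR).dj
    have h3 := ih (fun A hA => hC A (hm A hA)) (fun A hA => hCn A (hm A hA))
      (fun A hA A' hA' => hd A (hm A hA) A' (hm A' hA'))
      (fun A hA => hH A (hm A hA)) (fun A hA => hH' A (hm A hA)) hO2 (by
        rintro P (hP | hP) A hA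
        · exact hOC P hP A (hm A hA)
        · obtain ⟨m, y, hy, hRy⟩ := hCn R hR
          refine ⟨m, y, hy, ?_, ?_⟩
          · rw [← hRy]
            exact (hH' R hR).sub P hP
          · rw [← hRy]
            exact (hd A (hm A hA) R hR (hne A hA)).symm)
    rw [Finset.sum_insert hRC, e1, e2]
    have e4 : KM ((O ∪ ⋃ A ∈ C, H A) ∪ H R) z - KM ((O ∪ H' R) ∪ ⋃ A ∈ C, H' A) z =
        (KM ((O ∪ ⋃ A ∈ C, H A) ∪ H R) z - KM ((O ∪ ⋃ A ∈ C, H A) ∪ H' R) z) +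
        (KM ((O ∪ H' R) ∪ ⋃ A ∈ C, H A) z - KM ((O ∪ H' R) ∪ ⋃ A ∈ C, H' A) z) := by
      rw [e3]
      ring
    rw [e4]
    exact (norm_add_le _ _).trans (add_le_add h2 h3)

theorem Far.dd_nonneg {ρ₀ ρ : ℝ} (h : Far K ρ₀ ρ) (hQ : Q ⊆ lev K 0) {S S' : Set (Set ℂ)}
    (hS : NS K Q S) (hS' : NS K Q S') : 0 ≤ dd K Q ρ S S' :=
  h.dQ_nonneg hQ ⟨S, hS⟩ ⟨S', hS'⟩

/-! ### structures on the tree -/

/-- structures inside a tree node -/
abbrev SN (q : Tn K) : Type := SQ K q.st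

/-- union over the children, raw -/
def jn (q : Tn K) (a : ∀ r : Tn K, SN r) : Set (Set ℂ) := ⋃ r ∈ chs q, (a r).1

lemma mem_jn {q : Tn K} {a : ∀ r : Tn K, SN r} {A : Set ℂ} :
    A ∈ jn q a ↔ ∃ r ∈ chs q, A ∈ (a r).1 := by
  rw [jn, mem_iUnion₂]
  constructor
  · rintro ⟨r, h, h'⟩; exact ⟨r, h, h'⟩
  · rintro ⟨r, h, h'⟩; exact ⟨r, h, h'⟩

lemma ns_jn (hK : IsCompact K) (q : Tn K) (a : ∀ r : Tn K, SN r) : NS K q.st (jn q a) where
  fin := (finite_chs hK q).biUnion fun r _ => (a r).2.fin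
  pc A hA := by
    obtain ⟨r, -, hAr⟩ := mem_jn.1 hA
    exact (a r).2.pc A hAr
  disj := by
    intro A hA A' hA' hne
    obtain ⟨r, hr, hAr⟩ := mem_jn.1 hA
    obtain ⟨r', hr', hAr'⟩ := mem_jn.1 hA'
    by_cases h : r = r'
    · subst h
      exact (a r).2.disj A hAr A' hAr' hne
    · rw [disjoint_left]
      intro z hz hz'
      exact h (chs_disj hr hr' ⟨z, (a r).2.sub A hAr hz, (a r').2.sub A' hAr' hz'⟩)
  sub A hA := by
    obtain ⟨r, hr, hAr⟩ := mem_jn.1 hA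
    exact ((a r).2.sub A hAr).trans hr.2

/-- join -/
def join (hK : IsCompact K) (q : Tn K) (a : ∀ r : Tn K, SN r) : SN q := ⟨jn q a, ns_jn hK q a⟩

/-- the join is 1-Lipschitz -/
theorem Far.dQ_join {R ρ : ℝ} (h : Far K R ρ) (q : Tn K) (a a' : ∀ r : Tn K, SN r) :
    dQ K q.st ρ (join h.cpt q a) (join h.cpt q a') ≤
      ∑ r ∈ cht h.cpt q, dQ K r.st ρ (a r) (a' r) := by
  classical
  -- the families as functions of sets
  set n := q.lv + 1 with hn
  set H : (∀ r : Tn K, SN r) → Set ℂ → Set (Set ℂ) := fun a Q =>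
    if hQ : Q ∈ nods K n then (a ⟨(n, Q), hQ⟩).1 else ∅ with hH
  have hHr : ∀ (a : ∀ r : Tn K, SN r) (r : Tn K), r ∈ chs q → H a r.st = (a r).1 := by
    rintro a ⟨⟨m, Q⟩, hQ⟩ ⟨hr, -⟩
    have hm : m = n := hr
    subst hm
    simp only [hH, Tn.st]
    rw [dif_pos hQ]
  set C : Finset (Set ℂ) := (cht h.cpt q).image Tn.st with hC
  have hCm : ∀ Q ∈ C, ∃ r ∈ chs q, r.st = Q := by
    intro Q hQ
    obtain ⟨r, hr, rfl⟩ := Finset.mem_image.1 hQ
    exact ⟨r, (mem_cht h.cpt).1 hr, rfl⟩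
  have hU : ∀ a : ∀ r : Tn K, SN r, (⋃ Q ∈ C, H a Q) = jn q a := by
    intro a
    ext A
    rw [mem_iUnion₂, mem_jn]
    constructor
    · rintro ⟨Q, hQ, hA⟩
      obtain ⟨r, hr, rfl⟩ := hCm Q hQ
      rw [hHr a r hr] at hA
      exact ⟨r, hr, hA⟩
    · rintro ⟨r, hr, hA⟩
      refine ⟨r.st, Finset.mem_image_of_mem _ ((mem_cht h.cpt).2 hr), ?_⟩
      rwa [hHr a r hr]
  refine h.dQ_le fun O z => ?_
  have h1 := h.dd_biUnion C (H := H a) (H' := H a') (O := O.1)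
    (fun Q hQ => by
      obtain ⟨r, hr, rfl⟩ := hCm Q hQ
      exact nods_sub r.mem)
    (fun Q hQ => by
      obtain ⟨r, hr, rfl⟩ := hCm Q hQ
      have h1 := r.mem
      rw [hr.1] at h1
      obtain ⟨y, hy, hyr⟩ := h1
      exact ⟨q.lv, y, hy, hyr.symm⟩)
    (fun Q hQ Q' hQ' hne => by
      obtain ⟨r, hr, rfl⟩ := hCm Q hQ
      obtain ⟨r', hr', rfl⟩ := hCm Q' hQ'
      rw [disjoint_left]
      intro w hw hw'
      exact hne (congrArg Tn.st (chs_disj hr hr' ⟨w, hw, hw'⟩)))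
    (fun Q hQ => by
      obtain ⟨r, hr, rfl⟩ := hCm Q hQ
      rw [hHr a r hr]
      exact (a r).2)
    (fun Q hQ => by
      obtain ⟨r, hr, rfl⟩ := hCm Q hQ
      rw [hHr a' r hr]
      exact (a' r).2)
    O.2.1 (fun P hP Q hQ => by
      obtain ⟨r, hr, rfl⟩ := hCm Q hQ
      exact (O.off P hP).mono hr.2) z
  rw [hU a, hU a'] at h1
  refine h1.trans ?_
  rw [hC, Finset.sum_image]
  · refine Finset.sum_le_sum fun r hr => ?_
    rw [hHr a r ((mem_cht h.cpt).1 hr), hHr a' r ((mem_cht h.cpt).1 hr)]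
    exact le_rfl
  · intro r hr r' hr' h'
    have h1 := (mem_cht h.cpt).1 hr
    have h2 := (mem_cht h.cpt).1 hr'
    exact Tn.ext' (h1.1.trans h2.1.symm) h'

open Classical in
/-- the node itself, as a family (empty at the root) -/
noncomputable def onS (q : Tn K) : Set (Set ℂ) := if Pc K q.st then {q.st} else ∅

lemma ns_onS (q : Tn K) : NS K q.st (onS q) := by
  classical
  by_cases h : Pc K q.st
  · rw [onS, if_pos h]
    exact ⟨finite_singleton _, by rintro _ rfl; exact h, by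
      rintro _ rfl _ rfl hne
      exact absurd rfl hne, by rintro _ rfl; exact Subset.rfl⟩
  · rw [onS, if_neg h]
    exact ns_empty

/-- the node itself, as a structure (empty at the root) -/
noncomputable def on (q : Tn K) : SN q := ⟨onS q, ns_onS q⟩

lemma on_nt (hK : IsCompact K) (n : ℕ) {x : ℂ} (hx : x ∈ K) :
    (on (nt n hx)).1 = {nd K n x} := by
  have h : Pc K (nt n hx).st := pc_nd hK n hx
  change onS (nt n hx) = _
  rw [onS, if_pos h]
  rfl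

end Vale.Agent.P116.G
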