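import Mathlib
import Vale.Agent.P116.G.Tree
import Vale.Agent.P116.Slow.Seq

/-!
# The system of the structures of `K` with general pieces
-/

open Set Filter Topology Metric Bornology

namespace Vale.Agent.P116.G

open H906 Slow

variable {K : Set ℂ} {R ρ : ℝ}

/-- the space of structures inside a tree node, with the metric -/
def XQ (_h : Far K R ρ) (q : Tn K) : Type := SQ K q.st

noncomputable instance instXQ (h : Far K R ρ) (q : Tn K) : PseudoMetricSpace (XQ h q) :=
  h.pms (nods_sub q.mem)

lemma dist_XQ (h : Far K R ρ) (q : Tn K) (a a' : XQ h q) : dist a a' = dQ K q.st ρ a a' := rfl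

lemma reach_rt (hK : IsCompact K) (q : Tn K) :
    Relation.ReflTransGen (fun r q : Tn K => r ∈ cht hK q) q (rt K) := by
  have key : ∀ {x : ℂ} (hx : x ∈ K) (n : ℕ),
      Relation.ReflTransGen (fun r q : Tn K => r ∈ cht hK q) (br hx n) (rt K) := by
    intro x hx n
    induction n with
    | zero => exact Relation.ReflTransGen.refl
    | succ n ih => exact Relation.ReflTransGen.head ((mem_cht hK).2 (br_succ_mem hx n)) ih
  obtain ⟨⟨n, Q⟩, hq⟩ := q
  cases n with
  | zero =>
    have hQ : Q = lev K 0 := hq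
    subst hQ
    exact Relation.ReflTransGen.refl
  | succ n =>
    obtain ⟨x, hx, hxQ⟩ := hq
    have hQ : nd K n x = Q := hxQ
    subst hQ
    exact key hx (n + 1)

/-- the system of the structures of `K` -/
noncomputable def sysK (h : Far K R ρ) (hne : K.Nonempty) : Sys (Tn K) (XQ h) where
  lv := Tn.lv
  ch := cht h.cpt
  root := rt K
  lv_root := rfl
  lv_ch q r hr := ((mem_cht h.cpt).1 hr).1
  uniq q q' r hr hr' := chs_parent hne ((mem_cht h.cpt).1 hr) ((mem_cht h.cpt).1 hr')
  reach := reach_rt h.cpt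
  join := join h.cpt
  congr q a a' haa := by
    apply Subtype.ext
    change jn q a = jn q a'
    unfold jn
    refine iUnion₂_congr fun r hr => ?_
    rw [haa r ((mem_cht h.cpt).2 hr)]
  lip q a a' := h.dQ_join q a a'
  o := on

/-- unfolding a structure which is coherent above level `k` -/
lemma mem_of_coh (hK : IsCompact K) {k : ℕ} {c : ∀ q : Tn K, SN q}
    (hc : ∀ q : Tn K, q.lv < k → c q = join hK q c) {A : Set ℂ} :
    ∀ j : ℕ, ∀ q : Tn K, q.lv + j = k →
      (A ∈ (c q).1 ↔ ∃ r : Tn K, r.lv = k ∧ r.st ⊆ q.st ∧ A ∈ (c r).1) := by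
  intro j
  induction j with
  | zero =>
    intro q hq
    constructor
    · intro hA
      exact ⟨q, by simpa using hq, Subset.rfl, hA⟩
    · rintro ⟨r, hr, hrq, hA⟩
      have h1 := r.mem
      have hrl : r.lv = q.lv := by omega
      rw [hrl] at h1
      obtain ⟨z, hz⟩ : A.Nonempty := ((c r).2.pc A hA).nontriv.nonempty
      have hzr := (c r).2.sub A hA hz
      have : r = q := Tn.ext' hrl (nods_disj h1 q.mem ⟨z, hzr, hrq hzr⟩)
      rwa [this] at hA
  | succ j ih =>
    intro q hq
    have hlt : q.lv < k := by omega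
    rw [hc q hlt]
    change A ∈ jn q c ↔ _
    rw [mem_jn]
    constructor
    · rintro ⟨r, hr, hA⟩
      obtain ⟨r', hr', hr'r, hA'⟩ := (ih r (by rw [hr.1]; omega)).1 hA
      exact ⟨r', hr', hr'r.trans hr.2, hA'⟩
    · rintro ⟨r, hr, hrq, hA⟩
      have hpc := (c r).2.pc A hA
      have hAr := (c r).2.sub A hA
      -- the child of `q` containing `r`
      obtain ⟨z, hz⟩ : A.Nonempty := hpc.nontriv.nonempty
      obtain ⟨⟨n, Q⟩, hQ⟩ := r
      cases n with
      | zero =>
        exfalso
        have : (0:ℕ) = k := hr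
        omega
      | succ n =>
        obtain ⟨x, hx, hxQ⟩ := hQ
        have hQ' : nd K n x = Q := hxQ
        subst hQ'
        have hn : n + 1 = k := hr
        have hxq : x ∈ q.st := hrq (mem_nd hx n)
        refine ⟨nt q.lv hx, ⟨rfl, ?_⟩, ?_⟩
        · -- `nd K q.lv x ⊆ q.st`
          obtain ⟨⟨m, Q'⟩, hQ'⟩ := q
          cases m with
          | zero =>
            have : Q' = lev K 0 := hQ'
            subst this
            exact nd_sub_lev0 0 x
          | succ m =>
            obtain ⟨y, hy, hyQ⟩ := hQ'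
            have hQ'' : nd K m y = Q' := hyQ
            subst hQ''
            have h1 : x ∈ nd K m y := hxq
            change nd K (m + 1) x ⊆ nd K m y
            rw [← nd_eq h1]
            exact nd_anti (Nat.le_succ m)
        · refine (ih (nt q.lv hx) (by rw [nt_lv]; omega)).2 ⟨_, hr, ?_, hA⟩
          change nd K n x ⊆ nd K q.lv x
          exact nd_anti (by omega)

/-- the merged state, as a family -/
lemma mg_eq (h : Far K R ρ) (hne : K.Nonempty) {x : ℂ} (hx : x ∈ K) (m : ℕ)
    {a : ∀ q : Tn K, XQ h q} (ha : ∀ q : Tn K, q.lv < m + 1 → a q = (sysK h hne).join q a) :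
    ((sysK h hne).mg (br hx) (m + 1) a (rt K)).1 = mrg (nd K m x) (a (rt K)).1 := by
  classical
  set s := sysK h hne with hs
  set c := s.mg (br hx) (m + 1) a with hc
  have hc1 : ∀ q : Tn K, q.lv < m + 1 → c q = join h.cpt q c := by
    intro q hq
    exact s.mg_lt a hq
  have hc2 : ∀ q : Tn K, q.lv = m + 1 →
      c q = Function.update a (br hx (m + 1)) (s.o (br hx (m + 1))) q := by
    intro q hq
    exact s.Rc_ge _ (by change m + 1 ≤ q.lv; omega)
  ext A
  rw [mem_of_coh h.cpt hc1 (m + 1) (rt K) (by simp)]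
  rw [mrg, mem_insert_iff, mem_ofPred_eq, mem_of_coh h.cpt ha (m + 1) (rt K) (by simp)]
  constructor
  · rintro ⟨r, hr, -, hA⟩
    rw [hc2 r hr] at hA
    by_cases hrb : r = br hx (m + 1)
    · subst hrb
      rw [Function.update_self] at hA
      left
      have hA' : A ∈ (on (nt m hx)).1 := hA
      rw [on_nt h.cpt] at hA'
      exact hA'
    · rw [Function.update_of_ne hrb] at hA
      refine Or.inr ⟨⟨r, hr, nods_sub r.mem, hA⟩, ?_⟩
      rw [disjoint_left]
      intro z hz hz'
      have h1 := r.mem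
      rw [hr] at h1
      exact hrb (Tn.ext' (by rw [hr, br_lv]) (nods_disj h1 (br hx (m + 1)).mem
        ⟨z, (a r).2.sub A hA hz, hz'⟩))
  · rintro (rfl | ⟨⟨r, hr, -, hA⟩, hd⟩)
    · refine ⟨br hx (m + 1), br_lv hx _, nods_sub (br hx (m + 1)).mem, ?_⟩
      rw [hc2 _ (br_lv hx _), Function.update_self]
      change nd K m x ∈ (on (nt m hx)).1
      rw [on_nt h.cpt]
      exact rfl
    · have hrb : r ≠ br hx (m + 1) := by
        rintro rfl
        obtain ⟨z, hz⟩ : A.Nonempty := ((a _).2.pc A hA).nontriv.nonempty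
        exact disjoint_left.1 hd hz ((a _).2.sub A hA hz)
      refine ⟨r, hr, nods_sub r.mem, ?_⟩
      rw [hc2 r hr, Function.update_of_ne hrb]
      exact hA

end Vale.Agent.P116.G
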