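import Vale.Agent.P116.Ms.EN7
import Vale.Agent.P116.G.Def

/-!
# A small disk is negligible, general pieces (port of Ms/EN7 and Ms/AR1)
-/

open Set Filter Topology Metric Bornology MeasureTheory

namespace Vale.Agent.P116.G

open H906
open Ms (Energy ep_of Lf7 tr7 inv_f inv_mem Od7)
open PBC (card_disks)
open Slow (KM KM_eq KM_nu KM_cmap exh_of)

/-- EN7: a small disk is negligible -/
def Negl : Prop := ∀ {K : Set ℂ} {R ρ : ℝ} (h : Far K R ρ) {ε : ℝ} (_ : 0 < ε), ∃ η > 0,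
    ∀ (S : Set (Set ℂ)) (hS : NS K (lev K 0) S), ∀ u ∈ S, ∀ U : Set (Set ℂ), NS K u U →
      kr fk ⟨S, ns_adm h.cpt h.full hS⟩ u < η →
      ∀ z ∈ sphere (0:ℂ) ρ, ‖KM S z - KM ((S \ {u}) ∪ U) z‖ ≤ ε

/-- AR1 (uses Negl and the area of the disks) -/
def CountCtx : Prop := ∀ {K : Set ℂ} {R ρ : ℝ} (_ : Far K R ρ) {ε : ℝ} (_ : 0 < ε), ∃ N : ℕ,
    ∀ (S : Set (Set ℂ)) (_ : NS K (lev K 0) S) (A : Finset (Set ℂ)) (_ : ∀ u ∈ A, u ∈ S)
      (U : Set ℂ → Set (Set ℂ)) (_ : ∀ u ∈ A, NS K u (U u)),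
      (∀ u ∈ A, ∃ z ∈ sphere (0:ℂ) ρ, ε < ‖KM S z - KM ((S \ {u}) ∪ U u) z‖) → A.card ≤ N

/-- replacing a piece by a structure inside it -/
lemma ns_repl {K Q : Set ℂ} {S : Set (Set ℂ)} (hS : NS K Q S) {u : Set ℂ} (hu : u ∈ S)
    {U : Set (Set ℂ)} (hU : NS K u U) : NS K Q ((S \ {u}) ∪ U) where
  fin := (hS.fin.subset sdiff_subset).union hU.fin
  pc := by
    rintro P (hP | hP)
    · exact hS.pc P hP.1
    · exact hU.pc P hP
  disj := by
    rintro P (hP | hP) P' (hP' | hP') hne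
    · exact hS.disj P hP.1 P' hP'.1 hne
    · exact (hS.disj P hP.1 u hu (fun e => hP.2 e)).mono_right (hU.sub P' hP')
    · exact ((hS.disj P' hP'.1 u hu (fun e => hP'.2 e)).mono_right (hU.sub P hP)).symm
    · exact hU.disj P hP P' hP' hne
  sub := by
    rintro P (hP | hP)
    · exact hS.sub P hP.1
    · exact (hU.sub P hP).trans (hS.sub u hu)

variable {K : Set ℂ} {R ρ : ℝ}

/-- far away the two maps are close -/
theorem far_close (hE : Energy) (h : Far K R ρ) {S : Set (Set ℂ)} (hS : NS K (lev K 0) S)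
    {u : Set ℂ} (hu : u ∈ S) {U : Set (Set ℂ)} (hU : NS K u U) {x : ℂ}
    (hx : 34 * R + 25 ≤ ‖x‖) :
    ‖KM ((S \ {u}) ∪ U) x - KM S x‖ ^ 2 ≤
      100 * kr fk ⟨S, ns_adm h.cpt h.full hS⟩ u * (5 * (R + 1)) := by
  classical
  have hR := h.rpos
  have hS' : NS K (lev K 0) ((S \ {u}) ∪ U) := ns_repl hS hu hU
  have hA : Adm S := ns_adm h.cpt h.full hS
  have hA' : Adm ((S \ {u}) ∪ U) := ns_adm h.cpt h.full hS'
  have hC := KM_cmap hA
  have hC' := KM_cmap hA'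
  have hball : ∀ P ⊆ lev K 0, P ⊆ ball (0:ℂ) (R + 1) := fun P hP =>
    (hP.trans h.sub).trans (closedBall_subset_ball (by linarith))
  have hSR : ∀ P ∈ S, P ⊆ ball (0:ℂ) (R + 1) := fun P hP => hball P (hS.sub P hP)
  have hSR' : ∀ P ∈ (S \ {u}) ∪ U, P ⊆ ball (0:ℂ) (R + 1) := fun P hP => hball P (hS'.sub P hP)
  have hfin : Finite S := hS.fin.to_subtype
  set e : Fin (Nat.card S) ≃ S := (Finite.equivFin S).symm with he
  have hP := ep_of hA hA' hC hC' hu (fun P hP hPu => Or.inl ⟨hP, hPu⟩)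
    (fun P hP => by
      rcases hP with hP | hP
      · exact Or.inl ⟨hP.1, hP.2⟩
      · exact Or.inr (hU.sub P hP)) (show 0 < R + 1 by linarith) hSR e
  have hLu : Lf7 ((S \ {u}) ∪ U) (KM ((S \ {u}) ∪ U)) (kc fk ⟨_, hA'⟩) (kr fk ⟨_, hA'⟩) u u ⊆
      closedBall 0 (5 * (R + 1)) := by
    unfold Lf7
    rw [if_pos rfl]
    exact (Tm_mono (hSR u hu)).trans (hC'.Tm_bound hA' (by linarith)
      (sUnion_subset fun P hP => (hSR' P hP).trans ball_subset_closedBall))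
  have hxR : 2 * R < ‖x‖ := by linarith
  have hxS : x ∈ (⋃₀ S)ᶜ := by
    rintro ⟨P, hP, hxP⟩
    have := hSR P hP hxP
    rw [mem_ball, dist_zero_right] at this
    linarith
  have hb := h.bound hS hxR
  have hb2 : 24 * R ^ 2 / ‖x‖ ≤ 12 * R := by
    rw [div_le_iff₀ (by linarith)]
    nlinarith
  have hz : 4 * (5 * (R + 1)) + 4 ≤ ‖KM S x‖ := by
    have h3 : ‖x‖ ≤ ‖KM S x - x‖ + ‖KM S x‖ := by
      have := norm_sub_le (KM S x) (KM S x - x)
      rw [sub_sub_cancel] at this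
      linarith
    linarith
  have key := hE hP (e.symm ⟨u, hu⟩) (c' := fun j => kc fk ⟨_, hA'⟩ (e j).1)
    (r' := fun j => kr fk ⟨_, hA'⟩ (e j).1) (fun j hj => by
      have hju : (e j).1 ≠ u := by
        intro hju
        apply hj
        rw [Equiv.eq_symm_apply]
        exact Subtype.ext hju
      refine ⟨hC'.rpos _ (Or.inl ⟨(e j).2, hju⟩), ?_⟩
      unfold Lf7
      rw [if_neg hju])
    (w₀ := 0) (D := 5 * (R + 1)) (by linarith)
    (by
      rw [e.apply_symm_apply]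
      exact hLu) (z := KM S x) hz
  have hinv := (inv_f hC hxS).2
  have e1 : tr7 S (KM S) (KM ((S \ {u}) ∪ U)) (KM S x) = KM ((S \ {u}) ∪ U) x := by
    unfold tr7
    rw [hinv]
  rw [e1, e.apply_symm_apply] at key
  exact key

/-- data of a counterexample -/
structure Bad7 (K : Set ℂ) (ρ ε η : ℝ) (hK : IsCompact K) (hf : Full K) where
  S : Set (Set ℂ)
  hS : NS K (lev K 0) S
  u : Set ℂ
  hu : u ∈ S
  U : Set (Set ℂ)
  hU : NS K u U
  z : ℂ
  hz : z ∈ sphere (0:ℂ) ρ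
  small : kr fk ⟨S, ns_adm hK hf hS⟩ u < η
  big : ε < ‖KM S z - KM ((S \ {u}) ∪ U) z‖

/-- **EN7** -/
theorem negl (hE : Energy) : Negl := by
  classical
  intro K R ρ h ε hε
  by_contra hcon
  push Not at hcon
  have hex : ∀ k : ℕ, Nonempty (Bad7 K ρ ε (1 / ((k:ℝ) + 1)) h.cpt h.full) := by
    intro k
    obtain ⟨S, hS, u, hu, U, hU, h1, z, hz, h2⟩ := hcon (1 / ((k:ℝ) + 1)) (by positivity)
    exact ⟨⟨S, hS, u, hu, U, hU, z, hz, h1, h2⟩⟩
  have b : ∀ k : ℕ, Bad7 K ρ ε (1 / ((k:ℝ) + 1)) h.cpt h.full := fun k => (hex k).some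
  have hR := h.rpos
  have hρ := h.pos
  have hS' : ∀ k, NS K (lev K 0) (((b k).S \ {(b k).u}) ∪ (b k).U) := fun k =>
    ns_repl (b k).hS (b k).hu (b k).hU
  set 𝔘 : Ultrafilter ℕ := Filter.hyperfilter ℕ with h𝔘
  have hVo : IsOpen (lev K 0 ∪ ∅)ᶜ :=
    ((isCompact_lev h.cpt 0).union isCompact_empty).isClosed.isOpen_compl
  have hKR : lev K 0 ∪ ∅ ⊆ closedBall 0 R := by rw [union_empty]; exact h.sub
  have hfull : Full (lev K 0 ∪ ∅) := by rw [union_empty]; exact full_lev 0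
  have e1 : Exh (𝔘 : Filter ℕ) (lev K 0 ∪ ∅)ᶜ (fun k => (⋃₀ (b k).S)ᶜ)
      (fun k => KM (b k).S) R :=
    exh_of (isCompact_lev h.cpt 0) isCompact_empty hfull
      (fun k => ns_adm h.cpt h.full (b k).hS)
      (fun k P hP => ((b k).hS.sub P hP).trans subset_union_left) hR hKR
  have e2 : Exh (𝔘 : Filter ℕ) (lev K 0 ∪ ∅)ᶜ
      (fun k => (⋃₀ (((b k).S \ {(b k).u}) ∪ (b k).U))ᶜ)
      (fun k => KM (((b k).S \ {(b k).u}) ∪ (b k).U)) R :=
    exh_of (isCompact_lev h.cpt 0) isCompact_empty hfull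
      (fun k => ns_adm h.cpt h.full (hS' k))
      (fun k P hP => ((hS' k).sub P hP).trans subset_union_left) hR hKR
  obtain ⟨f, hf1⟩ := e1.exists_lim
  obtain ⟨f', hf2⟩ := e2.exists_lim
  -- the limits agree far away
  have hnat : Tendsto (fun k : ℕ => 1 / ((k:ℝ) + 1)) (𝔘 : Filter ℕ) (𝓝 0) :=
    tendsto_one_div_add_atTop_nhds_zero_nat.mono_left Nat.hyperfilter_le_atTop
  have hfar : ∀ x : ℂ, 34 * R + 25 ≤ ‖x‖ → f x = f' x := by
    intro x hx
    have hxV : x ∈ (lev K 0 ∪ ∅)ᶜ := by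
      intro hm
      have := hKR hm
      rw [mem_closedBall_zero_iff] at this
      linarith
    have t1 := hf1.tendsto_at hxV
    have t2 := hf2.tendsto_at hxV
    have t3 : Tendsto (fun k => ‖KM (((b k).S \ {(b k).u}) ∪ (b k).U) x - KM (b k).S x‖ ^ 2)
        (𝔘 : Filter ℕ) (𝓝 (‖f' x - f x‖ ^ 2)) := ((t2.sub t1).norm).pow 2
    have t4 : Tendsto (fun k : ℕ => 100 * (1 / ((k:ℝ) + 1)) * (5 * (R + 1))) (𝔘 : Filter ℕ)
        (𝓝 (100 * 0 * (5 * (R + 1)))) := (hnat.const_mul 100).mul_const _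
    have t5 : ‖f' x - f x‖ ^ 2 ≤ 100 * 0 * (5 * (R + 1)) := by
      refine le_of_tendsto_of_tendsto' t3 t4 fun k => ?_
      have h3 := far_close hE h (b k).hS (b k).hu (b k).hU hx
      have h4 := (b k).small
      refine h3.trans ?_
      have h5 : 0 < 5 * (R + 1) := by linarith
      refine mul_le_mul_of_nonneg_right ?_ h5.le
      linarith
    have t6 : ‖f' x - f x‖ = 0 := by
      have h7 : 0 ≤ ‖f' x - f x‖ := norm_nonneg _
      nlinarith
    rw [norm_eq_zero, sub_eq_zero] at t6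
    exact t6.symm
  have hff : EqOn f f' (lev K 0 ∪ ∅)ᶜ := by
    obtain ⟨z₁, hz₁⟩ : ∃ z₁ : ℂ, 34 * R + 25 < ‖z₁‖ := by
      refine ⟨((34 * R + 26 : ℝ) : ℂ), ?_⟩
      rw [Complex.norm_real, Real.norm_of_nonneg (by positivity)]
      linarith
    have hz₁V : z₁ ∈ (lev K 0 ∪ ∅)ᶜ := by
      intro hm
      have := hKR hm
      rw [mem_closedBall_zero_iff] at this
      linarith
    refine ((e1.lim_diff hf1).analyticOnNhd hVo).eqOn_of_preconnected_of_eventuallyEq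
      ((e2.lim_diff hf2).analyticOnNhd hVo) e1.conn hz₁V ?_
    filter_upwards [(isOpen_lt continuous_const continuous_norm).mem_nhds hz₁] with z hz
    exact hfar z (le_of_lt hz)
  have hsph : sphere (0:ℂ) ρ ⊆ (lev K 0 ∪ ∅)ᶜ := by
    intro z hz hm
    have := hKR hm
    rw [mem_closedBall_zero_iff] at this
    rw [mem_sphere_zero_iff_norm] at hz
    have := h.lt
    linarith
  have u1 := Metric.tendstoUniformlyOn_iff.1
    ((tendstoLocallyUniformlyOn_iff_forall_isCompact hVo).1 hf1 _ hsph (isCompact_sphere 0 ρ))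
    (ε / 2) (by positivity)
  have u2 := Metric.tendstoUniformlyOn_iff.1
    ((tendstoLocallyUniformlyOn_iff_forall_isCompact hVo).1 hf2 _ hsph (isCompact_sphere 0 ρ))
    (ε / 2) (by positivity)
  obtain ⟨k, hk1, hk2⟩ := (u1.and u2).exists
  have a1 := hk1 (b k).z (b k).hz
  have a2 := hk2 (b k).z (b k).hz
  rw [← hff (hsph (b k).hz)] at a2
  have a3 := dist_triangle_left (KM (b k).S (b k).z)
    (KM (((b k).S \ {(b k).u}) ∪ (b k).U) (b k).z) (f (b k).z)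
  rw [dist_eq_norm (KM (b k).S (b k).z)] at a3
  have a4 := (b k).big
  linarith


/-- AR1 -/
theorem countCtx (hN : Negl) : CountCtx := by
  intro K R ρ h ε hε
  obtain ⟨η, hη, hη'⟩ := hN h hε
  obtain ⟨N, hN'⟩ := exists_nat_gt ((5 * (R + 1)) ^ 2 / η ^ 2)
  refine ⟨N, fun S hS A hA U hU hbig => ?_⟩
  have hadm := ns_adm h.cpt h.full hS
  have hR := h.rpos
  have hkr : ∀ u ∈ A, η ≤ kr fk ⟨S, hadm⟩ u := by
    intro u hu
    by_contra hlt
    push Not at hlt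
    obtain ⟨z, hz, hz'⟩ := hbig u hu
    exact absurd (hη' S hS u (hA u hu) (U u) (hU u hu) hlt z hz) (not_le.2 hz')
  have hmap := kmap fk ⟨S, hadm⟩
  have hSR : (⋃₀ S : Set ℂ) ⊆ closedBall 0 (R + 1) :=
    (sUnion_subset fun P hP => (hS.sub P hP).trans h.sub).trans
      (closedBall_subset_closedBall (by linarith))
  have h1 : kT fk ⟨S, hadm⟩ (ball 0 (R + 1)) ⊆ closedBall 0 (5 * (R + 1)) :=
    hmap.Tm_bound hadm (by positivity) hSR
  have h2 := card_disks (T := A) (c := kc fk ⟨S, hadm⟩) (r := kr fk ⟨S, hadm⟩)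
    (M := 5 * (R + 1)) hη (by positivity) hkr
    (fun P hP P' hP' hne => hmap.disj P (hA P hP) P' (hA P' hP') hne)
    (fun P hP => by
      intro w hw
      obtain ⟨y, hy⟩ := (hadm.conn P (hA P hP)).nonempty
      refine h1 (Or.inr (mem_iUnion₂.2 ⟨P, ⟨hA P hP, y, ?_, hy⟩, hw⟩))
      have := h.sub (hS.sub P (hA P hP) hy)
      rw [mem_closedBall] at this
      rw [mem_ball]
      linarith)
  have h3 : (A.card : ℝ) ≤ (5 * (R + 1)) ^ 2 / η ^ 2 := by
    rw [le_div_iff₀ (by positivity)]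
    exact h2
  have h4 : (A.card : ℝ) < N := lt_of_le_of_lt h3 hN'
  exact_mod_cast h4.le


end Vale.Agent.P116.G
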