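import Mathlib
import Vale.Agent.P116.G.EN7
import Vale.Agent.P116.G.CN

/-!
# The count bound at a node from the bound in a fixed context, general pieces
-/

open Set Filter Topology Metric Bornology MeasureTheory

namespace Vale.Agent.P116.G

open H906
open Slow (KM KM_eq KM_nu Tn nods_sub)

variable {K : Set ℂ} {R ρ : ℝ}

/-- AR2: the count bound at a node -/
def AreaBound : Prop := ∀ {K : Set ℂ} {R ρ : ℝ} (_ : Far K R ρ) (q : Tn K) {ε : ℝ} (_ : 0 < ε),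
    ∃ N : ℕ, ∀ (S : Set (Set ℂ)) (_ : NS K q.st S) (A : Finset (Set ℂ)) (_ : ∀ u ∈ A, u ∈ S)
      (U : Set ℂ → Set (Set ℂ)) (_ : ∀ u ∈ A, NS K u (U u)),
      (∀ u ∈ A, ε ≤ dd K q.st ρ S ((S \ {u}) ∪ U u)) → A.card ≤ N

/-- AR2 -/
theorem areaBound (h1 : CountCtx) (h2 : CtxNet) : AreaBound := by
  classical
  intro K R ρ h q ε hε
  obtain ⟨𝒪, h𝒪, hnet⟩ := h2 h q (show (0:ℝ) < ε / 8 by positivity)
  obtain ⟨N, hN⟩ := h1 h (show (0:ℝ) < ε / 8 by positivity)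
  have hq : q.st ⊆ lev K 0 := nods_sub q.mem
  refine ⟨h𝒪.toFinset.card * N, fun S hS A hA U hU hbig => ?_⟩
  have hne := h.nonempty (Q := q.st)
  have hne' : Nonempty (CQ K q.st) := nonempty_CQ
  -- the context of a node
  have hctx : ∀ u ∈ A, ∃ O ∈ 𝒪, ∃ z ∈ sphere (0:ℂ) ρ,
      ε / 8 < ‖KM (O.1 ∪ S) z - KM (O.1 ∪ ((S \ {u}) ∪ U u)) z‖ := by
    intro u hu
    have hb := hbig u hu
    obtain ⟨⟨O, z⟩, hOz⟩ := exists_lt_of_lt_ciSup
      (show ε / 2 < ⨆ x : CQ K q.st × sphere (0:ℂ) ρ,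
        ‖KM (x.1.1 ∪ S) x.2 - KM (x.1.1 ∪ ((S \ {u}) ∪ U u)) x.2‖ from
        lt_of_lt_of_le (by linarith) hb)
    obtain ⟨O', hO', hO''⟩ := hnet O
    refine ⟨O', hO', z, z.2, ?_⟩
    have e1 := hO'' ⟨S, hS⟩ z z.2
    have e2 := hO'' ⟨_, ns_repl hS (hA u hu) (hU u hu)⟩ z z.2
    simp only at hOz e1 e2
    have e3 : KM (O.1 ∪ S) z - KM (O.1 ∪ ((S \ {u}) ∪ U u)) z =
        (KM (O.1 ∪ S) z - KM (O'.1 ∪ S) z) +
        (KM (O'.1 ∪ S) z - KM (O'.1 ∪ ((S \ {u}) ∪ U u)) z) -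
        (KM (O.1 ∪ ((S \ {u}) ∪ U u)) z - KM (O'.1 ∪ ((S \ {u}) ∪ U u)) z) := by ring
    rw [e3] at hOz
    have e4 := norm_sub_le ((KM (O.1 ∪ S) z - KM (O'.1 ∪ S) z) +
        (KM (O'.1 ∪ S) z - KM (O'.1 ∪ ((S \ {u}) ∪ U u)) z))
        (KM (O.1 ∪ ((S \ {u}) ∪ U u)) z - KM (O'.1 ∪ ((S \ {u}) ∪ U u)) z)
    have e5 := norm_add_le (KM (O.1 ∪ S) z - KM (O'.1 ∪ S) z)
        (KM (O'.1 ∪ S) z - KM (O'.1 ∪ ((S \ {u}) ∪ U u)) z)
    linarith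
  choose! O hO z hz hOz using hctx
  have hfib : ∀ P ∈ h𝒪.toFinset, (A.filter fun u => O u = P).card ≤ N := by
    intro P _
    refine hN (P.1 ∪ S) (ns_union hq hS P.2.1 P.dj) (A.filter fun u => O u = P)
      (fun u hu => Or.inr (hA u (Finset.mem_filter.1 hu).1)) U
      (fun u hu => hU u (Finset.mem_filter.1 hu).1) fun u hu => ?_
    obtain ⟨huA, huO⟩ := Finset.mem_filter.1 hu
    refine ⟨z u, hz u huA, ?_⟩
    have h3 := hOz u huA
    rw [huO] at h3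
    have hnot : u ∉ P.1 := by
      intro hmem
      obtain ⟨y, hy⟩ : u.Nonempty := (hS.pc u (hA u huA)).nontriv.nonempty
      exact disjoint_left.1 (P.dj u hmem) hy (hS.sub u (hA u huA) hy)
    have e : ((P.1 ∪ S) \ {u}) ∪ U u = P.1 ∪ ((S \ {u}) ∪ U u) := by
      rw [union_sdiff_distrib, sdiff_singleton_eq_self hnot, union_assoc]
    rw [e]
    exact h3
  calc A.card = ∑ P ∈ h𝒪.toFinset, (A.filter fun u => O u = P).card :=
        Finset.card_eq_sum_card_fiberwise fun u hu => by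
          simpa using hO u hu
    _ ≤ ∑ P ∈ h𝒪.toFinset, N := Finset.sum_le_sum hfib
    _ = h𝒪.toFinset.card * N := by rw [Finset.sum_const, smul_eq_mul]

end Vale.Agent.P116.G
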