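import Mathlib
import Vale.Agent.P116.Ms.All
import Vale.Agent.P116.G.Inst
import Vale.Agent.P116.G.AR2
import Vale.Agent.P116.G.CN

/-!
# The count bound for the system of the structures with general pieces
-/

open Set Filter Topology Metric Bornology MeasureTheory

namespace Vale.Agent.P116.G

open H906 Slow

variable {K : Set ℂ} {R ρ : ℝ}

lemma bel_sub (h : Far K R ρ) (hne : K.Nonempty) {q q' : Tn K} (hb : (sysK h hne).Bel q q') :
    q'.st ⊆ q.st := by
  induction hb using Relation.ReflTransGen.head_induction_on with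
  | refl => exact Subset.rfl
  | head h1 _ ih => exact ((mem_cht h.cpt).1 h1).2.trans ih

lemma onS_of_lv (hK : IsCompact K) {q : Tn K} (hq : q.lv ≠ 0) : (on q).1 = {q.st} := by
  obtain ⟨⟨n, Q⟩, hQ⟩ := q
  cases n with
  | zero => exact absurd rfl hq
  | succ n =>
    obtain ⟨x, hx, hxQ⟩ := hQ
    have hxQ' : nd K n x = Q := hxQ
    subst hxQ'
    exact on_nt hK n hx

/-- the count bound for the system of the structures of `K` with general pieces -/
def SysCnt : Prop := ∀ {K : Set ℂ} {R ρ : ℝ} (h : Far K R ρ) (hne : K.Nonempty),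
    (sysK h hne).Cnt

/-- AR3 -/
theorem sysCnt (hAB : AreaBound) : SysCnt := by
  classical
  intro K R ρ h hne Q ε hε
  obtain ⟨N, hN⟩ := hAB h Q hε
  refine ⟨N + 1, fun m ξ A hQm hA hbig => ?_⟩
  set s := sysK h hne with hs
  by_cases hm : m = 0
  · -- only the root
    subst hm
    have h1 : A ⊆ {rt K} := by
      intro u hu
      rw [Finset.mem_singleton]
      have h2 : u.lv = 0 := (hA u hu).1
      have h3 := u.mem
      rw [h2] at h3
      exact Tn.ext' h2 (mem_singleton_iff.1 h3)
    have h2 := Finset.card_le_card h1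
    rw [Finset.card_singleton] at h2
    omega
  · have hlvA : ∀ u ∈ A, u.lv = m := fun u hu => (hA u hu).1
    have hsubA : ∀ u ∈ A, u.st ⊆ Q.st := fun u hu => bel_sub h hne (hA u hu).2
    -- membership in a recomputed structure
    have hmem : ∀ (a : ∀ q : Tn K, XQ h q) (B : Set ℂ),
        B ∈ (s.Rc m a Q).1 ↔ ∃ r : Tn K, r.lv = m ∧ r.st ⊆ Q.st ∧ B ∈ (a r).1 := by
      intro a B
      have h1 := mem_of_coh h.cpt (k := m) (c := s.Rc m a) (A := B)
        (fun q hq => s.Rc_lt a hq) (m - Q.lv) Q (by
          have : Q.lv ≤ m := hQm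
          omega)
      rw [h1]
      constructor
      · rintro ⟨r, hr, hrQ, hB⟩
        refine ⟨r, hr, hrQ, ?_⟩
        rwa [s.Rc_ge a (by change m ≤ r.lv; omega)] at hB
      · rintro ⟨r, hr, hrQ, hB⟩
        refine ⟨r, hr, hrQ, ?_⟩
        rwa [s.Rc_ge a (by change m ≤ r.lv; omega)]
    set S : Set (Set ℂ) := (s.MG m A ξ Q).1 with hS
    have hSm : ∀ B, B ∈ S ↔ ∃ r : Tn K, r.lv = m ∧ r.st ⊆ Q.st ∧
        B ∈ (if r ∈ A then s.o r else ξ r : XQ h r).1 := fun B => hmem _ B
    set U : Set ℂ → Set (Set ℂ) := fun P =>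
      if hP : P ∈ nods K m then (ξ ⟨(m, P), hP⟩).1 else ∅ with hU
    have hUu : ∀ u ∈ A, U u.st = (ξ u).1 := by
      intro u hu
      obtain ⟨⟨n, P⟩, hP⟩ := u
      have hn : n = m := hlvA _ hu
      subst hn
      simp only [hU, Tn.st]
      rw [dif_pos hP]
    have hinj : ∀ u ∈ A, ∀ u' ∈ A, u.st = u'.st → u = u' := fun u hu u' hu' h' =>
      Tn.ext' ((hlvA u hu).trans (hlvA u' hu').symm) h'
    have hnonempty : ∀ (q : Tn K) (b : SN q) (B : Set ℂ), B ∈ b.1 → B.Nonempty :=
      fun q b B hB => (b.2.pc B hB).nontriv.nonempty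
    have hdisj : ∀ r r' : Tn K, r.lv = m → r'.lv = m → r ≠ r' → Disjoint r.st r'.st := by
      intro r r' hr hr' hrr
      rw [disjoint_left]
      intro z hz hz'
      have h1 := r.mem
      have h2 := r'.mem
      rw [hr] at h1
      rw [hr'] at h2
      exact hrr (Tn.ext' (hr.trans hr'.symm) (nods_disj h1 h2 ⟨z, hz, hz'⟩))
    have hkey : ∀ u ∈ A, (s.MG m (A.erase u) ξ Q).1 = (S \ {u.st}) ∪ U u.st := by
      intro u hu
      rw [hUu u hu]
      ext B
      have h1 : B ∈ (s.MG m (A.erase u) ξ Q).1 ↔ ∃ r : Tn K, r.lv = m ∧ r.st ⊆ Q.st ∧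
        B ∈ (if r ∈ A.erase u then s.o r else ξ r : XQ h r).1 := hmem _ B
      rw [h1]
      constructor
      · rintro ⟨r, hr, hrQ, hB⟩
        by_cases hru : r = u
        · subst hru
          right
          rw [if_neg (by simp)] at hB
          exact hB
        · left
          have e : (r ∈ A.erase u) ↔ r ∈ A := by
            rw [Finset.mem_erase]
            exact ⟨fun h => h.2, fun h => ⟨hru, h⟩⟩
          have hB' : B ∈ (if r ∈ A then s.o r else ξ r : XQ h r).1 := by
            by_cases hrA : r ∈ A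
            · rw [if_pos hrA]
              rwa [if_pos (e.2 hrA)] at hB
            · rw [if_neg hrA]
              rwa [if_neg (fun h => hrA (e.1 h))] at hB
          refine ⟨(hSm B).2 ⟨r, hr, hrQ, hB'⟩, ?_⟩
          intro hBu
          rw [mem_singleton_iff] at hBu
          obtain ⟨z, hz⟩ := hnonempty r _ B hB'
          have hz1 : z ∈ r.st := (if r ∈ A then s.o r else ξ r : XQ h r).2.sub B hB' hz
          rw [hBu] at hz
          exact disjoint_left.1 (hdisj r u hr (hlvA u hu) hru) hz1 hz
      · rintro (⟨hB, hBu⟩ | hB)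
        · obtain ⟨r, hr, hrQ, hB'⟩ := (hSm B).1 hB
          refine ⟨r, hr, hrQ, ?_⟩
          by_cases hrA : r ∈ A
          · rw [if_pos hrA] at hB'
            have h2 : (on r).1 = {r.st} := onS_of_lv h.cpt (by rw [hr]; exact hm)
            have h3 : B = r.st := by
              have : B ∈ (on r).1 := hB'
              rw [h2] at this
              exact this
            have hru : r ≠ u := by
              rintro rfl
              exact hBu h3
            rw [if_pos (Finset.mem_erase.2 ⟨hru, hrA⟩)]
            exact hB'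
          · rw [if_neg hrA] at hB'
            rw [if_neg (fun h => hrA (Finset.mem_of_mem_erase h))]
            exact hB'
        · refine ⟨u, hlvA u hu, hsubA u hu, ?_⟩
          rw [if_neg (by simp)]
          exact hB
    have hmemS : ∀ u ∈ A, u.st ∈ S := by
      intro u hu
      refine (hSm _).2 ⟨u, hlvA u hu, hsubA u hu, ?_⟩
      rw [if_pos hu]
      have h2 : (on u).1 = {u.st} := onS_of_lv h.cpt (by rw [hlvA u hu]; exact hm)
      change u.st ∈ (on u).1
      rw [h2]
      exact mem_singleton _
    have hcard : (A.image Tn.st).card = A.card :=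
      Finset.card_image_of_injOn fun u hu u' hu' h' =>
        hinj u (Finset.mem_coe.1 hu) u' (Finset.mem_coe.1 hu') h'
    have h5 := hN S (s.MG m A ξ Q).2 (A.image Tn.st)
      (fun P hP => by
        obtain ⟨u, hu, rfl⟩ := Finset.mem_image.1 hP
        exact hmemS u hu) U
      (fun P hP => by
        obtain ⟨u, hu, rfl⟩ := Finset.mem_image.1 hP
        rw [hUu u hu]
        exact (ξ u).2)
      (fun P hP => by
        obtain ⟨u, hu, rfl⟩ := Finset.mem_image.1 hP
        rw [← hkey u hu]
        exact hbig u hu)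
    rw [hcard] at h5
    omega

/-- all together -/
theorem sysCnt_all : SysCnt := sysCnt (areaBound (countCtx (negl Ms.energy)) ctxNet)

end Vale.Agent.P116.G
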