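import Vale.Agent.P116.Ms.SpecR
import Vale.Agent.P116.Ms.RG
import Vale.Agent.P116.Ms.RV
import Vale.Agent.P116.G.Inst

/-!
# Structures with general pieces: the limit trees give conformal maps

RG for an arbitrary budget family `E`: every limit tree `ξ ∈ VV E` has a conformal map `g ξ`, which
is a limit of the Koebe maps of structures in the families `E t δ`, and the map depends continuously
on the tree.
-/

open Set Filter Topology Metric Bornology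
open scoped UniformSpace

namespace Vale.Agent.P116.G

open H906
open Slow (KM KM_eq KM_nu mrg Tn rt WSl Sys)
open Slow.Sys

variable {K : Set ℂ} {R ρ : ℝ}

lemma Far.toS (h : Far K R ρ) : Slow.Far K R ρ := ⟨h.cpt, h.full, h.rpos, h.sub, h.lt⟩

/-- the states of one limit tree, for the budget family `E` -/
def StE (h : Far K R ρ) (hne : K.Nonempty) {Par : Type} (E : Par → ℝ → ∀ q : Tn K, Set (XQ h q))
    (ξ : ∀ Q : Tn K, UniformSpace.Completion (XQ h Q)) (g : ℂ → ℂ) (𝔊 : Ultrafilter Str) : Prop :=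
  Fine K (𝔊 : Filter Str) ∧
    TendstoLocallyUniformlyOn (kF fk) g (𝔊 : Filter Str) Kᶜ ∧
    (∀ᶠ S : Str in (𝔊 : Filter Str), NS K (lev K 0) S.1) ∧
    (∀ t, ∀ δ > 0, ∀ᶠ S : Str in (𝔊 : Filter Str), ∃ b ∈ E t δ (rt K), S.1 = b.1) ∧
    ∀ x (hx : x ∈ K), (∀ ε > 0, ∀ k₀, ∃ k ≥ k₀,
      dist (ξ (rt K)) ((sysK h hne).cmp.mg (Slow.br hx) k ξ (rt K)) < ε) →
        WSl K ρ (𝔊 : Filter Str) x

/-- one limit tree -/
theorem exists_g (h : Far K R ρ) (hne : K.Nonempty)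
    (hTB : ∀ q : Tn K, TotallyBounded (univ : Set (XQ h q)))
    {Par : Type} [Preorder Par] [IsDirected Par (· ≤ ·)] [Nonempty Par]
    (E : Par → ℝ → ∀ q : Tn K, Set (XQ h q))
    (hanti : ∀ t t', t ≤ t' → ∀ δ Q, E t' δ Q ⊆ E t δ Q)
    (hmono : ∀ t δ δ', δ ≤ δ' → ∀ Q, E t δ Q ⊆ E t δ' Q)
    (hjoin : ∀ t Q (a : ∀ Q, XQ h Q) (d : Tn K → ℝ), (∀ R ∈ (sysK h hne).ch Q, 0 ≤ d R) →
      (∀ R ∈ (sysK h hne).ch Q, a R ∈ E t (d R) R) →
        (sysK h hne).join Q a ∈ E t (∑ R ∈ (sysK h hne).ch Q, d R) Q)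
    (hfine : ∀ n, ∃ t, ∃ δ > 0, ∀ b ∈ E t δ (rt K), ∀ P ∈ b.1, P ⊆ lev K n)
    {ξ : ∀ Q : Tn K, UniformSpace.Completion (XQ h Q)} (hξ : ξ ∈ (sysK h hne).VV E) :
    ∃ g : ℂ → ℂ, NU Kᶜ g ∧ (∃ 𝔊 : Ultrafilter Str, StE h hne E ξ g 𝔊) ∧
      ∃ (𝓕 : Ultrafilter (Par × ℕ × Finset (Tn K)))
        (a : Par × ℕ × Finset (Tn K) → ∀ Q : Tn K, XQ h Q),
        Tendsto (fun i => (cc (a i) (rt K))) (𝓕 : Filter _) (𝓝 (ξ (rt K))) ∧
        ∀ z ∈ sphere (0:ℂ) ρ, Tendsto (fun i => KM (a i (rt K)).1 z) (𝓕 : Filter _) (𝓝 (g z)) := by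
  classical
  set s := sysK h hne with hs
  obtain ⟨𝓕, a, hE, hcoh, hlim⟩ := Ms.rv2 s (Par := Par) E hTB hanti hmono hjoin (ξ := ξ) hξ
  have hlimQ : ∀ Q, Tendsto (fun i => cc (a i) Q) (𝓕 : Filter _) (𝓝 (ξ Q)) :=
    fun Q => ((continuous_apply Q).tendsto ξ).comp hlim
  set Φ : Par × ℕ × Finset (Tn K) → Str := fun i =>
    ⟨(a i (rt K)).1, ns_adm h.cpt h.full (a i (rt K)).2⟩ with hΦ
  have hev : ∀ {p : Str → Prop}, (∀ᶠ i in (𝓕 : Filter _), p (Φ i)) →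
      ∀ᶠ S in ((𝓕.map Φ : Ultrafilter Str) : Filter Str), p S := by
    intro p hp
    rw [Ultrafilter.coe_map, eventually_map]
    exact hp
  have hF : Fine K ((𝓕.map Φ : Ultrafilter Str) : Filter Str) := by
    intro n
    refine hev ?_
    obtain ⟨t, δ, hδ, ht⟩ := hfine n
    filter_upwards [hE t δ hδ (rt K)] with i hi A hA
    exact ht _ hi A hA
  have hexh := hF.exh (h := fk) h.cpt h.full h.rpos h.sub
  obtain ⟨g, hg⟩ := hexh.exists_lim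
  refine ⟨g, hexh.lim_nu hg, ⟨𝓕.map Φ, hF, hg, hev (Eventually.of_forall fun i => (a i (rt K)).2),
    ?_, ?_⟩, 𝓕, a, hlimQ (rt K), ?_⟩
  · intro t δ hδ
    refine hev ?_
    filter_upwards [hE t δ hδ (rt K)] with i hi
    exact ⟨a i (rt K), hi, rfl⟩
  · intro x hx hsl ε hε k₀
    obtain ⟨k, hk, hk'⟩ := hsl ε hε (k₀ + 1)
    obtain ⟨m, rfl⟩ : ∃ m, k = m + 1 := ⟨k - 1, by omega⟩
    refine ⟨m, by omega, hev ?_⟩
    have h1 : Tendsto (fun i : Par × ℕ × Finset (Tn K) => dist (cc (a i) (rt K))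
        (s.cmp.mg (Slow.br hx) (m + 1) (cc (a i)) (rt K))) (𝓕 : Filter _)
        (𝓝 (dist (ξ (rt K)) (s.cmp.mg (Slow.br hx) (m + 1) ξ (rt K)))) :=
      (hlimQ (rt K)).dist
        ((((continuous_apply _).comp (s.cmp.continuous_mg (Slow.br hx) (m + 1))).tendsto ξ).comp
          hlim)
    filter_upwards [h1.eventually (gt_mem_nhds hk'), hcoh (m + 1)] with i hi hci z hz
    rw [s.cmp_mg] at hi
    rw [cc, cc, UniformSpace.Completion.dist_eq] at hi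
    have h1 := mg_eq h hne hx m (a := a i) (fun q hq => hci q hq)
    have h2 := h.le_dQ (Q := lev K 0) Subset.rfl (a i (rt K))
      (s.mg (Slow.br hx) (m + 1) (a i) (rt K))
      ⟨∅, ns_empty, fun _ hP => hP.elim⟩ ⟨z, hz⟩
    have h3 : dQ K (lev K 0) ρ (a i (rt K)) (s.mg (Slow.br hx) (m + 1) (a i) (rt K)) < ε := hi
    rw [← KM_eq (Φ i)]
    change ‖KM (a i (rt K)).1 z - KM (mrg (nd K m x) (a i (rt K)).1) z‖ ≤ ε
    rw [← h1]
    simp only [empty_union] at h2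
    exact h2.trans h3.le
  · intro z hz
    have hzK : z ∈ Kᶜ := by
      intro hzK
      have h5 := h.sub (H906.subset_lev 0 hzK)
      rw [mem_closedBall, dist_zero_right] at h5
      rw [mem_sphere, dist_zero_right] at hz
      linarith [h.lt, h.rpos]
    have h1 : Tendsto (fun S : Str => kF fk S z) ((𝓕.map Φ : Ultrafilter Str) : Filter Str)
        (𝓝 (g z)) := hg.tendsto_at hzK
    rw [Ultrafilter.coe_map, tendsto_map'_iff] at h1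
    refine h1.congr fun i => ?_
    exact congrFun (KM_eq (Φ i)).symm z

/-- on the far circle the value is `1`-Lipschitz in the tree -/
theorem circ_lip (h : Far K R ρ) {ξ ξ' : ∀ Q : Tn K, UniformSpace.Completion (XQ h Q)}
    {g g' : ℂ → ℂ} {ι ι' : Type*} {𝓕 : Filter ι} {𝓕' : Filter ι'} [𝓕.NeBot] [𝓕'.NeBot]
    {a : ι → ∀ Q : Tn K, XQ h Q} {a' : ι' → ∀ Q : Tn K, XQ h Q}
    (h1 : Tendsto (fun i => (cc (a i) (rt K))) 𝓕 (𝓝 (ξ (rt K))))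
    (h1' : Tendsto (fun i => (cc (a' i) (rt K))) 𝓕' (𝓝 (ξ' (rt K)))) {z : ℂ}
    (hz : z ∈ sphere (0:ℂ) ρ)
    (h2 : Tendsto (fun i => KM (a i (rt K)).1 z) 𝓕 (𝓝 (g z)))
    (h2' : Tendsto (fun i => KM (a' i (rt K)).1 z) 𝓕' (𝓝 (g' z))) :
    dist (g z) (g' z) ≤ dist (ξ (rt K)) (ξ' (rt K)) := by
  have e1 : Tendsto (fun p : ι × ι' => dist (KM (a p.1 (rt K)).1 z) (KM (a' p.2 (rt K)).1 z))
      (𝓕 ×ˢ 𝓕') (𝓝 (dist (g z) (g' z))) := (h2.comp tendsto_fst).dist (h2'.comp tendsto_snd)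
  have e2 : Tendsto (fun p : ι × ι' => dist (cc (a p.1) (rt K)) (cc (a' p.2) (rt K)))
      (𝓕 ×ˢ 𝓕') (𝓝 (dist (ξ (rt K)) (ξ' (rt K)))) :=
    (h1.comp tendsto_fst).dist (h1'.comp tendsto_snd)
  refine le_of_tendsto_of_tendsto e1 e2 (Eventually.of_forall fun p => ?_)
  dsimp only
  rw [cc, cc, UniformSpace.Completion.dist_eq]
  have h3 := h.le_dQ (Q := lev K 0) Subset.rfl (a p.1 (rt K)) (a' p.2 (rt K))
      ⟨∅, ns_empty, fun _ hP => hP.elim⟩ ⟨z, hz⟩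
  simp only [empty_union] at h3
  rw [dist_eq_norm]
  exact h3

/-- **RG** for a budget family -/
theorem rg' (h : Far K R ρ) (hne : K.Nonempty)
    {Par : Type} [Preorder Par] [IsDirected Par (· ≤ ·)] [Nonempty Par]
    (E : Par → ℝ → ∀ q : Tn K, Set (XQ h q))
    (hTB : ∀ q : Tn K, TotallyBounded (univ : Set (XQ h q)))
    (hanti : ∀ t t', t ≤ t' → ∀ δ Q, E t' δ Q ⊆ E t δ Q)
    (hmono : ∀ t δ δ', δ ≤ δ' → ∀ Q, E t δ Q ⊆ E t δ' Q)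
    (hjoin : ∀ t Q (a : ∀ Q, XQ h Q) (d : Tn K → ℝ), (∀ R ∈ (sysK h hne).ch Q, 0 ≤ d R) →
      (∀ R ∈ (sysK h hne).ch Q, a R ∈ E t (d R) R) →
        (sysK h hne).join Q a ∈ E t (∑ R ∈ (sysK h hne).ch Q, d R) Q)
    (hfine : ∀ n, ∃ t, ∃ δ > 0, ∀ b ∈ E t δ (rt K), ∀ P ∈ b.1, P ⊆ lev K n) :
    ∃ g : (∀ Q : Tn K, UniformSpace.Completion (XQ h Q)) → ℂ → ℂ,
      ContinuousOn (fun p : (∀ Q : Tn K, UniformSpace.Completion (XQ h Q)) × ℂ => g p.1 p.2)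
        ((sysK h hne).VV E ×ˢ Kᶜ) ∧
      ∀ ξ ∈ (sysK h hne).VV E, NU Kᶜ (g ξ) ∧ ∃ 𝔊 : Ultrafilter Str, Fine K (𝔊 : Filter Str) ∧
        TendstoLocallyUniformlyOn (kF fk) (g ξ) (𝔊 : Filter Str) Kᶜ ∧
        (∀ᶠ S : Str in (𝔊 : Filter Str), NS K (lev K 0) S.1) ∧
        (∀ t, ∀ δ > 0, ∀ᶠ S : Str in (𝔊 : Filter Str), ∃ b ∈ E t δ (rt K), S.1 = b.1) ∧
        ∀ x (hx : x ∈ K), (∀ ε > 0, ∀ k₀, ∃ k ≥ k₀,
          dist (ξ (rt K)) ((sysK h hne).cmp.mg (Slow.br hx) k ξ (rt K)) < ε) →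
            WSl K ρ (𝔊 : Filter Str) x := by
  classical
  have hex : ∀ ξ : ∀ Q : Tn K, UniformSpace.Completion (XQ h Q), ∃ g : ℂ → ℂ,
      ξ ∈ (sysK h hne).VV E →
      NU Kᶜ g ∧ (∃ 𝔊 : Ultrafilter Str, StE h hne E ξ g 𝔊) ∧
      ∃ (𝓕 : Ultrafilter (Par × ℕ × Finset (Tn K)))
        (a : Par × ℕ × Finset (Tn K) → ∀ Q : Tn K, XQ h Q),
        Tendsto (fun i => (cc (a i) (rt K))) (𝓕 : Filter _) (𝓝 (ξ (rt K))) ∧
        ∀ z ∈ sphere (0:ℂ) ρ, Tendsto (fun i => KM (a i (rt K)).1 z) (𝓕 : Filter _)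
          (𝓝 (g z)) := by
    intro ξ
    by_cases hξ : ξ ∈ (sysK h hne).VV E
    · obtain ⟨g, hg⟩ := exists_g h hne hTB E hanti hmono hjoin hfine hξ
      exact ⟨g, fun _ => hg⟩
    · exact ⟨id, fun h' => absurd h' hξ⟩
  choose g hg using hex
  refine ⟨g, ?_, fun ξ hξ => ⟨(hg ξ hξ).1, (hg ξ hξ).2.1⟩⟩
  have hlip : ∀ ξ ∈ (sysK h hne).VV E, ∀ ξ' ∈ (sysK h hne).VV E, ∀ z ∈ sphere (0:ℂ) ρ,
      dist (g ξ z) (g ξ' z) ≤ dist (ξ (rt K)) (ξ' (rt K)) := by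
    intro ξ hξ ξ' hξ' z hz
    obtain ⟨-, -, 𝓕, a, h1, h2⟩ := hg ξ hξ
    obtain ⟨-, -, 𝓕', a', h1', h2'⟩ := hg ξ' hξ'
    exact circ_lip h h1 h1' hz (h2 z hz) (h2' z hz)
  have hconv : ∀ ξ ∈ (sysK h hne).VV E,
      ∀ 𝒰 : Ultrafilter (∀ Q : Tn K, UniformSpace.Completion (XQ h Q)),
      (𝒰 : Filter _) ≤ 𝓝[(sysK h hne).VV E] ξ →
      TendstoLocallyUniformlyOn g (g ξ) (𝒰 : Filter _) Kᶜ := by
    intro ξ hξ 𝒰 h𝒰
    have hmem : ∀ᶠ ξ' in (𝒰 : Filter _), ξ' ∈ (sysK h hne).VV E := h𝒰 self_mem_nhdsWithin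
    have hE : Exh (𝒰 : Filter _) Kᶜ (fun _ => Kᶜ) g R :=
      Ms.exh_const h.toS (hmem.mono fun ξ' hξ' => (hg ξ' hξ').1)
    obtain ⟨G, hG⟩ := hE.exists_lim
    have hsph : sphere (0:ℂ) ρ ⊆ Kᶜ := by
      intro z hz hzK
      have h5 := h.sub (H906.subset_lev 0 hzK)
      rw [mem_closedBall, dist_zero_right] at h5
      rw [mem_sphere, dist_zero_right] at hz
      linarith [h.lt, h.rpos]
    have hGg : EqOn G (g ξ) Kᶜ := by
      refine Ms.eq_of_circ h.toS (hE.lim_nu hG) (hg ξ hξ).1 fun z hz => ?_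
      have h1 : Tendsto (fun ξ' => g ξ' z) (𝒰 : Filter _) (𝓝 (G z)) := hG.tendsto_at (hsph hz)
      have h2 : Tendsto (fun ξ' => g ξ' z) (𝒰 : Filter _) (𝓝 (g ξ z)) := by
        rw [tendsto_iff_dist_tendsto_zero]
        have h3 : Tendsto (fun ξ' : ∀ Q : Tn K, UniformSpace.Completion (XQ h Q) =>
            dist (ξ' (rt K)) (ξ (rt K))) (𝒰 : Filter _) (𝓝 0) := by
          have h4 : Continuous fun ξ' : ∀ Q : Tn K, UniformSpace.Completion (XQ h Q) =>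
              dist (ξ' (rt K)) (ξ (rt K)) := (continuous_apply (rt K)).dist continuous_const
          have h5 := h4.tendsto ξ
          rw [dist_self] at h5
          exact h5.mono_left (h𝒰.trans nhdsWithin_le_nhds)
        refine tendsto_of_tendsto_of_tendsto_of_le_of_le' tendsto_const_nhds h3
          (Eventually.of_forall fun _ => dist_nonneg) ?_
        filter_upwards [hmem] with ξ' hξ'
        exact hlip ξ' hξ' ξ hξ z hz
      exact tendsto_nhds_unique h1 h2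
    exact hG.congr_right hGg
  rintro ⟨ξ, z⟩ ⟨hξ, hz⟩
  change Tendsto _ _ _
  rw [tendsto_iff_ultrafilter]
  intro 𝒲 h𝒲
  have h1 : ((𝒲.map Prod.fst : Ultrafilter _) : Filter _) ≤ 𝓝[(sysK h hne).VV E] ξ := by
    rw [Ultrafilter.coe_map]
    refine (map_mono h𝒲).trans ?_
    rw [nhdsWithin_prod_eq]
    exact tendsto_fst
  have h2 : Tendsto (Prod.snd : (∀ Q : Tn K, UniformSpace.Completion (XQ h Q)) × ℂ → ℂ)
      (𝒲 : Filter ((∀ Q : Tn K, UniformSpace.Completion (XQ h Q)) × ℂ)) (𝓝[Kᶜ] z) := by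
    refine Tendsto.mono_left ?_ h𝒲
    rw [nhdsWithin_prod_eq]
    exact tendsto_snd
  have h3 := hconv ξ hξ _ h1
  rw [Metric.tendsto_nhds]
  intro ε hε
  obtain ⟨t, ht, hev⟩ := Metric.tendstoLocallyUniformlyOn_iff.1 h3 (ε / 2) (half_pos hε) z hz
  rw [Ultrafilter.coe_map, eventually_map] at hev
  have h4 : Tendsto (fun p : (∀ Q : Tn K, UniformSpace.Completion (XQ h Q)) × ℂ => g ξ p.2)
      (𝒲 : Filter _) (𝓝 (g ξ z)) :=
    (((hg ξ hξ).1.diff.continuousOn z hz).tendsto).comp h2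
  filter_upwards [hev, h2 ht, Metric.tendsto_nhds.1 h4 (ε / 2) (half_pos hε)] with p h5 h6 h7
  have h8 := h5 p.2 h6
  have h9 := dist_triangle (g p.1 p.2) (g ξ p.2) (g ξ z)
  rw [dist_comm (g ξ p.2)] at h8
  change dist (g p.1 p.2) (g ξ z) < ε
  linarith

end Vale.Agent.P116.G
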