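import Vale.Agent.P116.Ms.AllR
import Vale.Agent.P116.G.RG
import Vale.Agent.P116.G.TB
import Vale.Agent.P116.G.WS
import Vale.Agent.P116.G.Out
import Vale.Agent.P116.Cl.H339.RVw

/-!
# The fair law

`exists_FSt`: for every budget family `E` (antitone in the parameter, monotone in `δ`, nonempty,
compatible with the joins, containing the deep nodes, fine) there is a fair law: a compact metrizable
space `Ω` with a probability measure and limit maps `g ω` of structures in the families `E t δ` such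
that each point of `K` is almost surely good.
-/

open Set Filter Topology Metric Bornology MeasureTheory
open scoped UniformSpace

namespace Vale.Agent.P116.G

open H906 PBC
open Slow (KM KM_eq KM_nu mrg Tn rt WSl Sys)
open Slow.Sys

variable {K : Set ℂ} {R ρ : ℝ}

/-- weakly slow points are good -/
theorem good_of_wsl (hK : IsCompact K) (hf : Full K) {x : ℂ} (hx : x ∈ K) {𝔊 : Ultrafilter Str}
    (hG : Fine K (𝔊 : Filter Str)) (hNS : ∀ᶠ S : Str in (𝔊 : Filter Str), NS K (lev K 0) S.1)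
    {ρ₀ : ℝ} (hρ₀ : 0 < ρ₀) (hρK : sphere (0:ℂ) ρ₀ ⊆ Kᶜ) (hslow : WSl K ρ₀ (𝔊 : Filter Str) x)
    {φ : ℂ → ℂ} (hφ : TendstoLocallyUniformlyOn (kF fk) φ (𝔊 : Filter Str) Kᶜ) :
    GoodAt fk K (𝔊 : Filter Str) x ∧ ∃ c r, GD K φ x c r ∧ MD K (𝔊 : Filter Str) φ x c r := by
  refine wsG hK hf hx hG (fun k => ?_) hρ₀ hρK hslow hφ
  filter_upwards [hNS] with S hS
  exact ns_adm hK hf (ns_mrg hS (pc_nd hK k hx) (Slow.nd_sub_lev0 _ _))

/-- **the fair law** of a budget family -/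
theorem exists_FSt (h : Far K R ρ) (hne : K.Nonempty) (hS : (sysK h hne).Cnt)
    {Par : Type} [Preorder Par] [IsDirected Par (· ≤ ·)] [Nonempty Par]
    (E : Par → ℝ → ∀ q : Tn K, Set (XQ h q))
    (hanti : ∀ t t', t ≤ t' → ∀ δ Q, E t' δ Q ⊆ E t δ Q)
    (hmono : ∀ t δ δ', δ ≤ δ' → ∀ Q, E t δ Q ⊆ E t δ' Q)
    (hbase : ∀ t, ∀ δ > 0, ∀ Q, (E t δ Q).Nonempty)
    (hjoin : ∀ t Q (a : ∀ Q, XQ h Q) (d : Tn K → ℝ), (∀ R ∈ (sysK h hne).ch Q, 0 ≤ d R) →
      (∀ R ∈ (sysK h hne).ch Q, a R ∈ E t (d R) R) →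
        (sysK h hne).join Q a ∈ E t (∑ R ∈ (sysK h hne).ch Q, d R) Q)
    (ho : ∀ t (c : ConnectedComponents K), ∀ δ > 0, ∃ m₀, ∀ m ≥ m₀,
      (sysK h hne).o (Ms.brc c m) ∈ E t δ (Ms.brc c m))
    (hfine : ∀ n, ∃ t, ∃ δ > 0, ∀ b ∈ E t δ (rt K), ∀ P ∈ b.1, P ⊆ lev K n) :
    ∃ (Ω : Type) (_ : TopologicalSpace Ω) (_ : MeasurableSpace Ω) (P : Measure Ω)
      (g : Ω → ℂ → ℂ) (𝔊 : Ω → Ultrafilter Str),
      FSt K (fun t δ => {S | ∃ b ∈ E t δ (rt K), S = b.1}) Ω P g 𝔊 := by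
  classical
  have hcpt : ∀ q : Tn K, CompactSpace (UniformSpace.Completion (XQ h q)) := compact_cmp (tbd h)
  have hKc : CompactSpace K := isCompact_iff_compactSpace.1 h.cpt
  set s := sysK h hne with hs
  have hbr' : ∀ c : ConnectedComponents K, s.cmp.Br (Ms.brc c) :=
    fun _ => ⟨rfl, fun k => (Slow.mem_cht h.cpt).2 (Slow.br_succ_mem _ k)⟩
  have hnice : s.cmp.NiceU (range (Ms.brc (K := K))) (s.VV E) :=
    Cl.rv1w s E (tbd h) (fun _ => ⟨rfl, fun k => (Slow.mem_cht h.cpt).2 (Slow.br_succ_mem _ k)⟩)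
      hanti hmono hbase hjoin ho
  obtain ⟨V, hVV, hVc, hP⟩ := Ms.rk2 (Ms.rk1 Ms.ab1 Ms.mm Ms.wc) Ms.rb
    (β := ConnectedComponents K) hbr' Ms.isOpen_brc (Ms.ab4 hS) hnice
  obtain ⟨g, hgc, hgV⟩ := rg' h hne E (tbd h) hanti hmono hjoin hfine
  have hcount : Countable (Tn K) := Slow.countable_Tn h.cpt
  let _ : MeasurableSpace ↥V := borel _
  have hB : BorelSpace ↥V := ⟨rfl⟩
  obtain ⟨P, hPx⟩ := hP
  choose 𝔊 hFine hconv hNS hbud hsl using fun ω : ↥V => (hgV ω.1 (hVV ω.2)).2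
  have hρK : sphere (0:ℂ) ρ ⊆ Kᶜ := by
    intro z hz hzK
    have h5 := h.sub (H906.subset_lev 0 hzK)
    rw [mem_closedBall, dist_zero_right] at h5
    rw [mem_sphere, dist_zero_right] at hz
    linarith [h.lt, h.rpos]
  refine ⟨↥V, inferInstance, inferInstance, (P : Measure ↥V), fun ω => g ω.1, 𝔊,
    ⟨isCompact_iff_compactSpace.1 hVc.isCompact, ?_, hB, inferInstance, ?_,
    fun ω => (hgV _ (hVV ω.2)).1, fun ω => hFine ω, fun ω => hconv ω, fun ω => hNS ω,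
    fun ω t δ hδ => hbud ω t δ hδ, ?_⟩⟩
  · infer_instance
  · refine hgc.comp (f := fun p : ↥V × ℂ => (p.1.1, p.2)) ?_ ?_
    · exact ((continuous_subtype_val.comp continuous_fst).prodMk continuous_snd).continuousOn
    · rintro ⟨ω, z⟩ ⟨-, hz⟩
      exact ⟨hVV ω.2, hz⟩
  · intro x hx
    filter_upwards [hPx (ConnectedComponents.mk (⟨x, hx⟩ : K))] with ω hω
    refine (good_of_wsl h.cpt h.full hx (hFine ω) (hNS ω) h.pos hρK ?_ (hconv ω)).1
    refine hsl ω x hx ?_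
    have h5 := hω
    rw [Ms.brc_mk] at h5
    exact h5

end Vale.Agent.P116.G
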